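import Vale.Agent.P323.Defs

namespace Vale.Agent.P323

universe u

/-- A normal ideal of supports: a family of subsets of the set `A` of atoms which contains the
empty set and is closed under finite unions and under the action of `G`. -/
structure SuppIdeal (G A : Type u) [Group G] [MulAction G A] where
  mem : Set A → Prop
  empty : mem ∅
  union : ∀ {e f : Set A}, mem e → mem f → mem (e ∪ f)
  image : ∀ {e : Set A} (g : G), mem e → mem ((fun a => g • a) '' e)

/-- The filter of the permutation model with supports in the ideal `I`: the subgroups that contain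
the pointwise stabilizer of a member of `I`. -/
def suppFilter {G A : Type u} [Group G] [MulAction G A] (I : SuppIdeal G A) : NormalFilter G where
  mem H := ∃ e : Set A, I.mem e ∧ ∀ g : G, (∀ a ∈ e, g • a = a) → g ∈ H
  top_mem := ⟨∅, I.empty, fun _ _ => Subgroup.mem_top _⟩
  inter := by
    rintro H K ⟨e, he', he⟩ ⟨f, hf', hf⟩
    exact ⟨e ∪ f, I.union he' hf', fun g hg => ⟨he g fun a ha => hg a (Or.inl ha),
      hf g fun a ha => hg a (Or.inr ha)⟩⟩
  up := by
    rintro H K ⟨e, he', he⟩ hle
    exact ⟨e, he', fun g hg => hle (he g hg)⟩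
  conj := by
    rintro H g ⟨e, he', he⟩
    refine ⟨(fun a => g • a) '' e, I.image g he', fun k hk => ?_⟩
    refine ⟨g⁻¹ * k * g, he _ fun a ha => ?_, ?_⟩
    · rw [mul_smul, mul_smul, hk (g • a) (Set.mem_image_of_mem _ ha), inv_smul_smul]
    · simp [MulAut.conj_apply, mul_assoc]

end Vale.Agent.P323
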