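import Vale.Agent.P323.Idx
import Vale.Agent.P323.Defs3

namespace Vale.Agent.P323

universe u

variable {G : Type u} [Group G] {F : NormalFilter G}

theorem coded_of (hPP : PP F) {K₀ D : Subgroup G} (hK₀ : F.mem K₀) (hD : F.mem D)
    (huniv : ∀ P : Subgroup G, F.mem P → ∃ h ∈ K₀, ∀ x ∈ D, h * x * h⁻¹ ∈ P) :
    ∃ K : Subgroup G, F.mem K ∧ K ≤ K₀ ∧
      ∀ P : Subgroup G, F.mem P → P ≤ K → ∃ h ∈ K₀, ∀ x, x ∈ P ↔ x ∈ K ∧ h⁻¹ * x * h ∈ D := by
  let ι : Type u := {M : Subgroup G // F.mem M ∧ D ≤ M}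
  let E : ι → Subgroup G := fun _ => D
  let M : ι → Subgroup G := fun p => p.1
  let κ : ι → Type u := fun _ => PUnit
  obtain ⟨K, hK, hKK, j, hinj, hj⟩ := orb_inj hPP hK₀ (E := E) (M := M) (fun _ => hD)
    (fun p => p.2.1) (fun p => p.2.2) κ
  refine ⟨K, hK, hKK, ?_⟩
  intro P hP hPK
  obtain ⟨h, hh, hhP⟩ := huniv P hP
  let M₁ : Subgroup G := P.comap (MulAut.conj h).toMonoidHom
  have hM₁ : ∀ x, x ∈ M₁ ↔ h * x * h⁻¹ ∈ P := fun x => Iff.rfl
  have hM₁F : F.mem M₁ := by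
    refine F.up (F.conj h⁻¹ hP) ?_
    rintro x ⟨p, hp, rfl⟩
    rw [hM₁]
    have : h * ((MulAut.conj h⁻¹).toMonoidHom p) * h⁻¹ = p := by
      simp [mul_assoc]
    rw [this]
    exact hp
  let i : ι := ⟨M₁, hM₁F, fun x hx => (hM₁ x).mpr (hhP x hx)⟩
  have ht : CP.mk M κ i h PUnit.unit ∈ orbCar K₀ M κ := mk_mem_orb hh
  obtain ⟨i', h', hh', t', hs⟩ := orb_exists (j ⟨_, ht⟩).2
  refine ⟨h', hh', ?_⟩
  have hfix1 : ∀ k, k • CP.mk M κ i h PUnit.unit = CP.mk M κ i h PUnit.unit ↔ k ∈ P := by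
    intro k
    rw [CP.smul_mk, CP.mk_eq]
    have e : h * ((k * h)⁻¹ * h) * h⁻¹ = k⁻¹ := by group
    constructor
    · rintro ⟨h1, -⟩
      have h2 := (hM₁ _).mp h1
      rw [e] at h2
      simpa using P.inv_mem h2
    · intro hk
      refine ⟨(hM₁ _).mpr ?_, rfl⟩
      rw [e]
      exact P.inv_mem hk
  have hfix2 : ∀ k, k • CP.mk E κ i' h' t' = CP.mk E κ i' h' t' ↔ h'⁻¹ * k * h' ∈ D := by
    intro k
    rw [CP.smul_mk, CP.mk_eq]
    have e : ((k * h')⁻¹ * h')⁻¹ = h'⁻¹ * k * h' := by group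
    constructor
    · rintro ⟨h1, -⟩
      have h2 := D.inv_mem h1
      rwa [e] at h2
    · intro hk
      refine ⟨?_, rfl⟩
      have h2 := D.inv_mem hk
      rw [← e, inv_inv] at h2
      exact h2
  intro x
  constructor
  · intro hx
    refine ⟨hPK hx, ?_⟩
    rw [← hfix2]
    have h1 := hj x (hPK hx) ⟨_, ht⟩ (smul_mem_orb ht (hKK (hPK hx)))
    have h2 : (⟨x • CP.mk M κ i h PUnit.unit, smul_mem_orb ht (hKK (hPK hx))⟩ :
        orbCar K₀ M κ) = ⟨_, ht⟩ := Subtype.ext ((hfix1 x).mpr hx)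
    rw [h2, hs] at h1
    exact h1.symm
  · rintro ⟨hxK, hx⟩
    rw [← hfix1]
    have h1 := hj x hxK ⟨_, ht⟩ (smul_mem_orb ht (hKK hxK))
    rw [hs, (hfix2 x).mpr hx, ← hs] at h1
    exact congrArg Subtype.val (hinj (Subtype.ext h1))

/-- the pointwise stabilizer of a set of atoms -/
def fx {G A : Type u} [Group G] [MulAction G A] (e : Set A) : Subgroup G where
  carrier := {g | ∀ a ∈ e, g • a = a}
  one_mem' := fun a _ => one_smul _ a
  mul_mem' := by
    intro g h hg hh a ha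
    rw [mul_smul, hh a ha, hg a ha]
  inv_mem' := by
    intro g hg a ha
    rw [inv_smul_eq_iff, hg a ha]

/-- With PP, in a model with supports in `I`, every filter subgroup of some `K` is the
intersection of `K` with the pointwise stabilizer of a member of `I`. -/
theorem coded_supp {G A : Type u} [Group G] [MulAction G A] {I : SuppIdeal G A}
    (hPP : PP (suppFilter I)) (hU : Unif (suppFilter I)) :
    ∃ C : Set A, I.mem C ∧ ∃ K : Subgroup G, fx C ≤ K ∧
      ∀ P : Subgroup G, (suppFilter I).mem P → P ≤ K →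
        ∃ e : Set A, I.mem e ∧ P = K ⊓ fx e := by
  obtain ⟨D, ⟨E, hE, hED⟩, -, huniv⟩ := hU ⊤ (suppFilter I).top_mem
  have hfE : (suppFilter I).mem (fx E) := ⟨E, hE, fun g hg => hg⟩
  obtain ⟨K, ⟨C, hC, hCK⟩, -, hcode⟩ := coded_of hPP (K₀ := ⊤) (D := fx E)
    (suppFilter I).top_mem hfE (fun P hP => by
      obtain ⟨h, hh, h1⟩ := huniv P hP
      exact ⟨h, hh, fun x hx => h1 x (hED x hx)⟩)
  refine ⟨C, hC, K, fun g hg => hCK g hg, ?_⟩
  intro P hP hPK
  obtain ⟨h, -, hh⟩ := hcode P hP hPK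
  refine ⟨(fun a => h • a) '' E, I.image h hE, ?_⟩
  ext x
  rw [hh x]
  constructor
  · rintro ⟨h1, h2⟩
    refine ⟨h1, ?_⟩
    rintro _ ⟨a, ha, rfl⟩
    have := h2 a ha
    rw [mul_smul, mul_smul, inv_smul_eq_iff] at this
    exact this
  · rintro ⟨h1, h2⟩
    refine ⟨h1, ?_⟩
    intro a ha
    rw [mul_smul, mul_smul, h2 _ ⟨a, ha, rfl⟩, inv_smul_smul]

/-- models whose group contains all transpositions of atoms -/
theorem least_of_swaps {G A : Type u} [Group G] [MulAction G A] {I : SuppIdeal G A}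
    (hsw : ∀ a b : A, ∃ g : G, g • a = b ∧ g • b = a ∧ ∀ c, c ≠ a → c ≠ b → g • c = c)
    (hPP : PP (suppFilter I)) (hU : Unif (suppFilter I)) :
    ∃ E, (suppFilter I).mem E ∧ ∀ D, (suppFilter I).mem D → E ≤ D := by
  classical
  by_cases hA : I.mem Set.univ
  · refine ⟨fx Set.univ, ⟨_, hA, fun g hg => hg⟩, ?_⟩
    rintro D ⟨e, he, hD⟩ x hx
    exact hD x fun a _ => hx a (Set.mem_univ a)
  by_cases hne : ∃ e, I.mem e ∧ e.Nonempty
  swap
  · push Not at hne
    refine ⟨⊤, (suppFilter I).top_mem, ?_⟩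
    rintro D ⟨e, he, hD⟩ x -
    have : e = ∅ := hne e he
    exact hD x (by rw [this]; exact fun a ha => absurd ha (Set.notMem_empty a))
  obtain ⟨e₀, he₀, hn₀⟩ := hne
  exfalso
  -- one can add a point to a nonempty member
  have hadd : ∀ e : Set A, I.mem e → e.Nonempty → ∀ b, I.mem (insert b e) := by
    rintro e he ⟨a, ha⟩ b
    by_cases hb : b ∈ e
    · rwa [Set.insert_eq_of_mem hb]
    obtain ⟨g, hga, hgb, hgc⟩ := hsw a b
    have h1 := I.union he (I.image g he)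
    have h2 : e ∪ (fun a => g • a) '' e = insert b e := by
      ext c
      constructor
      · rintro (hc | ⟨d, hd, rfl⟩)
        · exact Or.inr hc
        · by_cases hda : d = a
          · subst hda; exact Or.inl hga
          · by_cases hdb : d = b
            · subst hdb; exact absurd hd hb
            · show g • d ∈ _
              rw [hgc d hda hdb]; exact Or.inr hd
      · rintro (rfl | hc)
        · exact Or.inr ⟨a, ha, hga⟩
        · exact Or.inl hc
    rwa [h2] at h1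
  have hinf : ∀ e : Set A, I.mem e → e.Nonempty → (eᶜ).Infinite := by
    intro e he hn hfin
    have key : ∀ s : Set A, s.Finite → I.mem (e ∪ s) := by
      intro s hs
      induction s, hs using Set.Finite.induction_on with
      | empty => rwa [Set.union_empty]
      | insert _ _ ih =>
        rw [Set.union_insert]
        exact hadd _ ih (hn.mono Set.subset_union_left) _
    have := key _ hfin
    rw [Set.union_compl_self] at this
    exact hA this
  obtain ⟨C, hC, K, hCK, hcode⟩ := coded_supp hPP hU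
  have hC' : I.mem (C ∪ e₀) := I.union hC he₀
  have hC'n : (C ∪ e₀).Nonempty := hn₀.mono Set.subset_union_right
  obtain ⟨a, ha⟩ := (hinf _ hC' hC'n).nonempty
  obtain ⟨b, hb, hba⟩ := (hinf _ hC' hC'n).exists_notMem_finset {a}
  rw [Finset.mem_singleton] at hba
  have haC : a ∉ C := fun h => ha (Or.inl h)
  have hbC : b ∉ C := fun h => hb (Or.inl h)
  let P : Subgroup G :=
    { carrier := {g | g ∈ fx (G := G) C ∧ ((g • a = a ∧ g • b = b) ∨ (g • a = b ∧ g • b = a))}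
      one_mem' := ⟨(fx C).one_mem, Or.inl ⟨one_smul _ a, one_smul _ b⟩⟩
      mul_mem' := by
        rintro g h ⟨hg, hg'⟩ ⟨hh, hh'⟩
        refine ⟨(fx C).mul_mem hg hh, ?_⟩
        rw [mul_smul, mul_smul]
        rcases hh' with ⟨h1, h2⟩ | ⟨h1, h2⟩ <;> rw [h1, h2] <;>
          rcases hg' with ⟨h3, h4⟩ | ⟨h3, h4⟩ <;> simp [h3, h4]
      inv_mem' := by
        rintro g ⟨hg, hg'⟩
        refine ⟨(fx C).inv_mem hg, ?_⟩
        rw [inv_smul_eq_iff, inv_smul_eq_iff, inv_smul_eq_iff, inv_smul_eq_iff]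
        rcases hg' with ⟨h1, h2⟩ | ⟨h1, h2⟩
        · exact Or.inl ⟨h1.symm, h2.symm⟩
        · exact Or.inr ⟨h2.symm, h1.symm⟩ }
  have hP : (suppFilter I).mem P := by
    refine ⟨insert b (insert a (C ∪ e₀)), hadd _ (hadd _ hC' hC'n a) (Set.insert_nonempty _ _) b,
      fun g hg => ⟨fun c hc => hg c (Or.inr (Or.inr (Or.inl hc))), Or.inl ⟨hg a ?_, hg b ?_⟩⟩⟩
    · exact Or.inr (Or.inl rfl)
    · exact Or.inl rfl
  obtain ⟨e, he, hPe⟩ := hcode P hP (fun g hg => hCK hg.1)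
  obtain ⟨s, hsa, hsb, hsc⟩ := hsw a b
  have hsP : s ∈ P := ⟨fun c hc => hsc c (fun h => haC (h ▸ hc)) (fun h => hbC (h ▸ hc)),
    Or.inr ⟨hsa, hsb⟩⟩
  have hse : s ∈ fx (G := G) e := (hPe ▸ hsP : s ∈ K ⊓ fx e).2
  have hae : a ∉ e := fun h => hba (hsa ▸ hse a h)
  have hCe : I.mem ((C ∪ e₀) ∪ e) := I.union hC' he
  obtain ⟨c, hc, hcab⟩ := (hinf _ hCe (hC'n.mono Set.subset_union_left)).exists_notMem_finset
    {a, b}
  simp only [Finset.mem_insert, Finset.mem_singleton, not_or] at hcab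
  have hcC : c ∉ C := fun h => hc (Or.inl (Or.inl h))
  have hce : c ∉ e := fun h => hc (Or.inr h)
  obtain ⟨t, hta, htc, htd⟩ := hsw a c
  have htK : t ∈ fx (G := G) C := fun d hd => htd d (fun h => haC (h ▸ hd)) (fun h => hcC (h ▸ hd))
  have hte : t ∈ fx (G := G) e := fun d hd => htd d (fun h => hae (h ▸ hd)) (fun h => hce (h ▸ hd))
  have htP : t ∈ P := by
    rw [hPe]
    exact ⟨hCK htK, hte⟩
  rcases htP.2 with ⟨h1, -⟩ | ⟨h1, -⟩
  · exact hcab.1 (hta.symm.trans h1)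
  · exact hcab.2 (hta.symm.trans h1)

theorem index_lt {G A : Type u} [Group G] [MulAction G A]
    (hA : Cardinal.mk A < Cardinal.continuum.{u}) {D : Subgroup G} {e : Finset A}
    (he : ∀ g : G, (∀ a ∈ e, g • a = a) → g ∈ D) :
    Cardinal.mk ((⊤ : Subgroup G) ⧸ D.subgroupOf ⊤) < Cardinal.continuum.{u} := by
  let f : (⊤ : Subgroup G) → (e → A) := fun g a => (g : G) • (a : A)
  let s : Set.range f → ((⊤ : Subgroup G) ⧸ D.subgroupOf ⊤) := fun y => (y.2.choose : _)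
  have hs : Function.Surjective s := by
    intro q
    obtain ⟨g, rfl⟩ := QuotientGroup.mk_surjective q
    refine ⟨⟨f g, g, rfl⟩, ?_⟩
    have hc : f (Exists.choose (⟨g, rfl⟩ : f g ∈ Set.range f)) = f g :=
      Exists.choose_spec (⟨g, rfl⟩ : f g ∈ Set.range f)
    show ((Exists.choose (⟨g, rfl⟩ : f g ∈ Set.range f) : (⊤ : Subgroup G)) :
      (⊤ : Subgroup G) ⧸ D.subgroupOf ⊤) = g
    rw [QuotientGroup.eq, Subgroup.mem_subgroupOf]
    apply he
    intro a ha
    have h1 := congrFun hc ⟨a, ha⟩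
    have h2 : ((Exists.choose (⟨g, rfl⟩ : f g ∈ Set.range f) : (⊤ : Subgroup G)) : G) • a =
      (g : G) • a := h1
    rw [Subgroup.coe_mul, mul_smul, ← h2, Subgroup.coe_inv, inv_smul_smul]
  have h1 : Cardinal.mk ((⊤ : Subgroup G) ⧸ D.subgroupOf ⊤) ≤ Cardinal.mk (e → A) :=
    (Cardinal.mk_le_of_surjective hs).trans (Cardinal.mk_set_le _)
  refine h1.trans_lt ?_
  rcases lt_or_ge (Cardinal.mk A) Cardinal.aleph0 with hfin | hinf
  · have : Finite A := Cardinal.lt_aleph0_iff_finite.mp hfin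
    exact (Cardinal.mk_lt_aleph0_iff.mpr inferInstance).trans Cardinal.aleph0_lt_continuum
  · have h2 : Cardinal.mk (e → A) = Cardinal.mk A ^ (Cardinal.mk e) := (Cardinal.power_def _ _).symm
    have h3 : Cardinal.mk e = ((Fintype.card e : ℕ) : Cardinal.{u}) := Cardinal.mk_fintype _
    rw [h2, h3, Cardinal.power_natCast]
    exact (Cardinal.power_nat_le hinf).trans_lt hA

theorem smallIndex_supp {G A : Type u} [Group G] [MulAction G A] {I : SuppIdeal G A}
    (hfin : ∀ e, I.mem e → e.Finite) (hA : Cardinal.mk A < Cardinal.continuum.{u}) :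
    SmallIndex (suppFilter I) := by
  refine ⟨⊤, (suppFilter I).top_mem, ?_⟩
  rintro D ⟨e, he, hD⟩ -
  exact index_lt hA (e := (hfin e he).toFinset)
    (fun g hg => hD g fun a ha => hg a ((hfin e he).mem_toFinset.mpr ha))

theorem coded_supp' {G A : Type u} [Group G] [MulAction G A] {I : SuppIdeal G A}
    (hPP : PP (suppFilter I)) (hU : Unif (suppFilter I)) :
    ∃ C : Set A, I.mem C ∧ ∀ P : Subgroup G, (suppFilter I).mem P → P ≤ fx C →
      ∃ e : Set A, I.mem e ∧ P = fx e := by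
  obtain ⟨C, hC, K, hCK, h⟩ := coded_supp hPP hU
  refine ⟨C, hC, fun P hP hPC => ?_⟩
  obtain ⟨e, he, hPe⟩ := h P hP (hPC.trans hCK)
  refine ⟨C ∪ e, I.union hC he, le_antisymm ?_ ?_⟩
  · intro g hg a ha
    rcases ha with ha | ha
    · exact hPC hg a ha
    · have : g ∈ K ⊓ fx e := hPe ▸ hg
      exact this.2 a ha
  · intro g hg
    rw [hPe]
    exact ⟨hCK fun a ha => hg a (Or.inl ha), fun a ha => hg a (Or.inr ha)⟩

theorem coded_final {G A : Type u} [Group G] [MulAction G A] {I : SuppIdeal G A}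
    (hPP : PP (suppFilter I)) (hU : Unif (suppFilter I)) :
    ∃ C : Set A, I.mem C ∧ ∀ P : Subgroup G, (suppFilter I).mem P →
      (∀ g ∈ P, ∀ a ∈ C, g • a = a) → ∃ e : Set A, I.mem e ∧ ∀ g, g ∈ P ↔ ∀ a ∈ e, g • a = a := by
  obtain ⟨C, hC, h⟩ := coded_supp' hPP hU
  refine ⟨C, hC, fun P hP hPC => ?_⟩
  obtain ⟨e, he, hPe⟩ := h P hP hPC
  exact ⟨e, he, fun g => by rw [hPe]; exact Iff.rfl⟩

end Vale.Agent.P323
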