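import Mathlib

namespace Vale.Agent.P323

universe u

/-- A normal filter of subgroups of `G` (the data of a permutation model). -/
structure NormalFilter (G : Type u) [Group G] where
  mem : Subgroup G → Prop
  top_mem : mem ⊤
  inter : ∀ {H K : Subgroup G}, mem H → mem K → mem (H ⊓ K)
  up : ∀ {H K : Subgroup G}, mem H → H ≤ K → mem K
  conj : ∀ {H : Subgroup G} (g : G), mem H → mem (H.map (MulAut.conj g).toMonoidHom)

variable {G : Type u} [Group G]

/-- A set of the permutation model: `Pt` is a `G`-set all of whose points are symmetric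
(stabilizer in the filter), and `car` is a symmetric subset of `Pt`. -/
structure MSet (F : NormalFilter G) where
  Pt : Type u
  act : MulAction G Pt
  symPt : ∀ x : Pt, ∃ K : Subgroup G, F.mem K ∧ ∀ k ∈ K, act.smul k x = x
  car : Set Pt
  sym : ∃ K : Subgroup G, F.mem K ∧ ∀ k ∈ K, ∀ x ∈ car, act.smul k x ∈ car

variable {F : NormalFilter G}

/-- the action of `G` on the points of `X` -/
abbrev MSet.app (X : MSet F) (k : G) (x : X.Pt) : X.Pt := X.act.smul k x

/-- `f` is a function of the model: it commutes with all elements of a group of the filter. -/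
def SymMap (X Y : MSet F) (f : X.car → Y.car) : Prop :=
  ∃ K : Subgroup G, F.mem K ∧ ∀ k ∈ K, ∀ (x : X.car) (hx : X.app k x.1 ∈ X.car),
    (f ⟨X.app k x.1, hx⟩).1 = Y.app k (f x).1

/-- `r` is a binary relation of the model on `X`. -/
def SymRel (X : MSet F) (r : X.car → X.car → Prop) : Prop :=
  ∃ K : Subgroup G, F.mem K ∧ ∀ k ∈ K, ∀ (x y : X.car) (hx : X.app k x.1 ∈ X.car)
    (hy : X.app k y.1 ∈ X.car),
    (r x y ↔ r ⟨X.app k x.1, hx⟩ ⟨X.app k y.1, hy⟩)

/-- The partition principle in the permutation model. -/
def PP (F : NormalFilter G) : Prop :=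
  ∀ X Y : MSet F, (∃ f : X.car → Y.car, SymMap X Y f ∧ Function.Surjective f) →
    ∃ j : Y.car → X.car, SymMap Y X j ∧ Function.Injective j

/-- The axiom of choice in the permutation model: every surjection has a right inverse. -/
def AC (F : NormalFilter G) : Prop :=
  ∀ (X Y : MSet F) (f : X.car → Y.car), SymMap X Y f → Function.Surjective f →
    ∃ s : Y.car → X.car, SymMap Y X s ∧ ∀ y, f (s y) = y

/-- Choice for families of `n`-element sets in the permutation model. -/
def ChoiceN (F : NormalFilter G) (n : ℕ) : Prop :=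
  ∀ (X Y : MSet F) (f : X.car → Y.car), SymMap X Y f →
    (∀ y, Nat.card {x // f x = y} = n) →
    ∃ s : Y.car → X.car, SymMap Y X s ∧ ∀ y, f (s y) = y

/-- The set `X` has a strict linear order in the model. -/
def LinOrderable (X : MSet F) : Prop :=
  ∃ r : X.car → X.car → Prop, IsStrictTotalOrder X.car r ∧ SymRel X r

/-- The set `X` has a well-order in the model. -/
def WellOrderable (X : MSet F) : Prop :=
  ∃ r : X.car → X.car → Prop, IsWellOrder X.car r ∧ SymRel X r

/-- Choice for well-orderable families in the permutation model. -/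
def WOChoice (F : NormalFilter G) : Prop :=
  ∀ (X Y : MSet F) (f : X.car → Y.car), SymMap X Y f → Function.Surjective f →
    WellOrderable Y → ∃ s : Y.car → X.car, SymMap Y X s ∧ ∀ y, f (s y) = y

end Vale.Agent.P323
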