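import Vale.Agent.P323.Defs

namespace Vale.Agent.P323

universe u

variable {G : Type u} [Group G]

/-- Some group `K` of the filter has all its subgroups in the filter of index less than the
continuum (in the model: all `K`-orbits of sets have fewer than continuum many elements). -/
def SmallIndex (F : NormalFilter G) : Prop :=
  ∃ K : Subgroup G, F.mem K ∧ ∀ D : Subgroup G, F.mem D → D ≤ K →
    Cardinal.mk (K ⧸ D.subgroupOf K) < Cardinal.continuum.{u}

end Vale.Agent.P323
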