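import Vale.Agent.P323.Main

/-!
# Permutation models: many open subgroups

If the filter has the uniformity property and no least member, every open subgroup contains at
least `2^ℵ₀` open subgroups.
-/

namespace Vale.Agent.P323

universe u

variable {G : Type u} [Group G]

/-- the conjugate `g E g⁻¹` -/
def cj (g : G) (E : Subgroup G) : Subgroup G := E.map (MulAut.conj g).toMonoidHom

theorem mem_cj {g x : G} {E : Subgroup G} : x ∈ cj g E ↔ g⁻¹ * x * g ∈ E := by
  unfold cj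
  constructor
  · rintro ⟨y, hy, rfl⟩
    have : g⁻¹ * ((MulAut.conj g).toMonoidHom y) * g = y := by
      simp [mul_assoc]
    rw [this]
    exact hy
  · intro h
    exact ⟨g⁻¹ * x * g, h, by simp [mul_assoc]⟩

theorem cj_mul (g h : G) (E : Subgroup G) : cj (g * h) E = cj g (cj h E) := by
  ext x
  simp only [mem_cj, mul_inv_rev, mul_assoc]

theorem cj_one (E : Subgroup G) : cj 1 E = E := by
  ext x
  simp [mem_cj]

theorem cj_mono (g : G) {E E' : Subgroup G} (h : E ≤ E') : cj g E ≤ cj g E' := by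
  intro x hx
  rw [mem_cj] at hx ⊢
  exact h hx

theorem cj_le_iff (g : G) {E E' : Subgroup G} : cj g E ≤ cj g E' ↔ E ≤ E' := by
  refine ⟨fun h => ?_, cj_mono g⟩
  have := cj_mono g⁻¹ h
  rwa [← cj_mul, ← cj_mul, inv_mul_cancel, cj_one, cj_one] at this

theorem cj_lt (g : G) {E E' : Subgroup G} (h : E < E') : cj g E < cj g E' := by
  rw [lt_iff_le_not_ge] at h ⊢
  exact ⟨cj_mono g h.1, fun h' => h.2 ((cj_le_iff g).1 h')⟩

theorem cj_self {e : G} {E : Subgroup G} (he : e ∈ E) : cj e E = E := by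
  ext x
  rw [mem_cj]
  constructor
  · intro h
    have := E.mul_mem (E.mul_mem he h) (E.inv_mem he)
    simpa [mul_assoc] using this
  · intro h
    exact E.mul_mem (E.mul_mem (E.inv_mem he) h) he

theorem mem_of_cj {F : NormalFilter G} (g : G) {E : Subgroup G} (h : F.mem E) :
    F.mem (cj g E) := F.conj g h

theorem cj_le_of_forall {g : G} {E V : Subgroup G} (h : ∀ x ∈ E, g * x * g⁻¹ ∈ V) :
    cj g E ≤ V := by
  intro x hx
  rw [mem_cj] at hx
  have := h _ hx
  simpa [mul_assoc] using this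

/-- the interval `[A, B]` contains a conjugate of the pair `(D, E)` -/
def GoodI (D E A B : Subgroup G) : Prop := ∃ u : G, A ≤ cj u D ∧ cj u E ≤ B

theorem GoodI.lt {D E A B : Subgroup G} (hDE : D < E) (h : GoodI D E A B) : A < B := by
  obtain ⟨u, h1, h2⟩ := h
  exact lt_of_le_of_lt h1 (lt_of_lt_of_le (cj_lt u hDE) h2)

theorem GoodI.split {D E : Subgroup G} {x e : G} (hD : D = cj x E) (he : e ∈ E)
    (hex : cj e D ≤ cj x D) {A B : Subgroup G} (h : GoodI D E A B) :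
    ∃ C : Subgroup G, GoodI D E A C ∧ GoodI D E C B := by
  obtain ⟨u, h1, h2⟩ := h
  refine ⟨cj u (cj e⁻¹ D), ⟨u * e⁻¹ * x, ?_, ?_⟩, ⟨u * e⁻¹, ?_, ?_⟩⟩
  · refine h1.trans ?_
    rw [mul_assoc, cj_mul]
    apply cj_mono
    rw [cj_mul]
    have h3 := cj_mono e⁻¹ hex
    rwa [← cj_mul, inv_mul_cancel, cj_one] at h3
  · rw [mul_assoc, cj_mul, cj_mul, ← hD]
  · rw [cj_mul]
  · rw [cj_mul, cj_self (E.inv_mem he)]
    exact h2

/-- splitting with a gap -/
theorem GoodI.split2 {D E : Subgroup G} {x e : G} (hD : D = cj x E) (hDE : D < E) (he : e ∈ E)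
    (hex : cj e D ≤ cj x D) {A B : Subgroup G} (h : GoodI D E A B) :
    ∃ C C' : Subgroup G, GoodI D E A C ∧ C < C' ∧ GoodI D E C' B := by
  obtain ⟨C, h1, h2⟩ := h.split hD he hex
  obtain ⟨C', h3, h4⟩ := h2.split hD he hex
  exact ⟨C, C', h1, h3.lt hDE, h4⟩

/-- A tree of intervals gives `2^ℵ₀` suprema. -/
theorem exists_tree {α : Type u} [CompleteLattice α] (good : α → α → Prop)
    (hlt : ∀ a b, good a b → a < b)
    (hsp : ∀ a b, good a b → ∃ c c', good a c ∧ c < c' ∧ good c' b) {a₀ b₀ : α}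
    (h₀ : good a₀ b₀) :
    ∃ Q : (ℕ → Bool) → α, Function.Injective Q ∧ ∀ f, a₀ ≤ Q f ∧ Q f ≤ b₀ := by
  classical
  let Gd := {p : α × α // good p.1 p.2}
  have hs : ∀ p : Gd, ∃ lr : Gd × Gd, p.1.1 ≤ lr.1.1.1 ∧ lr.1.1.2 < lr.2.1.1 ∧
      lr.2.1.2 ≤ p.1.2 := by
    rintro ⟨⟨a, b⟩, hab⟩
    obtain ⟨c, c', h1, h2, h3⟩ := hsp a b hab
    exact ⟨(⟨(a, c), h1⟩, ⟨(c', b), h3⟩), le_rfl, h2, le_rfl⟩
  choose lr hlr1 hlr2 hlr3 using hs
  let seq : (ℕ → Bool) → ℕ → Gd := fun f n =>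
    Nat.rec (motive := fun _ => Gd) ⟨(a₀, b₀), h₀⟩
      (fun n p => if f n then (lr p).2 else (lr p).1) n
  have hseq : ∀ f n, seq f (n + 1) = if f n then (lr (seq f n)).2 else (lr (seq f n)).1 :=
    fun f n => rfl
  have hA : ∀ f n, (seq f n).1.1 ≤ (seq f (n + 1)).1.1 := by
    intro f n
    rw [hseq]
    split_ifs
    · exact (hlr1 _).trans ((hlt _ _ (lr (seq f n)).1.2).le.trans (hlr2 _).le)
    · exact hlr1 _
  have hB : ∀ f n, (seq f (n + 1)).1.2 ≤ (seq f n).1.2 := by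
    intro f n
    rw [hseq]
    split_ifs
    · exact hlr3 _
    · exact (hlr2 _).le.trans ((hlt _ _ (lr (seq f n)).2.2).le.trans (hlr3 _))
  have hAm : ∀ f, Monotone fun n => (seq f n).1.1 := fun f => monotone_nat_of_le_succ (hA f)
  have hBm : ∀ f, Antitone fun n => (seq f n).1.2 := fun f => antitone_nat_of_succ_le (hB f)
  have hAB : ∀ f m n, (seq f m).1.1 ≤ (seq f n).1.2 := by
    intro f m n
    calc (seq f m).1.1 ≤ (seq f (max m n)).1.1 := hAm f (le_max_left _ _)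
      _ ≤ (seq f (max m n)).1.2 := (hlt _ _ (seq f (max m n)).2).le
      _ ≤ (seq f n).1.2 := hBm f (le_max_right _ _)
  let Q : (ℕ → Bool) → α := fun f => ⨆ n, (seq f n).1.1
  have hQ1 : ∀ f n, (seq f n).1.1 ≤ Q f := fun f n => le_iSup (fun n => (seq f n).1.1) n
  have hQ2 : ∀ f n, Q f ≤ (seq f n).1.2 := fun f n => iSup_le fun m => hAB f m n
  have key : ∀ f g : ℕ → Bool, ∀ n, (∀ m < n, f m = g m) → f n = false → g n = true →
      Q f < Q g := by
    intro f g n hm hf hg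
    have heq : seq f n = seq g n := by
      clear hf hg
      induction n with
      | zero => rfl
      | succ n ih =>
        rw [hseq, hseq, ih (fun m h => hm m (h.trans (Nat.lt_succ_self n))),
          hm n (Nat.lt_succ_self n)]
    have h1 := hQ2 f (n + 1)
    have h2 := hQ1 g (n + 1)
    rw [hseq, hf] at h1
    rw [hseq, hg, ← heq] at h2
    simp only [Bool.false_eq_true, if_false] at h1
    simp only [if_true] at h2
    exact lt_of_le_of_lt h1 (lt_of_lt_of_le (hlr2 _) h2)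
  refine ⟨Q, ?_, fun f => ⟨hQ1 f 0, hQ2 f 0⟩⟩
  intro f g hfg
  by_contra hne
  have hex : ∃ n, f n ≠ g n := Function.ne_iff.1 hne
  have h1 := Nat.find_spec hex
  have h2 : ∀ m < Nat.find hex, f m = g m := fun m hm => not_not.1 (Nat.find_min hex hm)
  generalize Nat.find hex = n at h1 h2
  cases hf : f n with
  | false =>
    have hg : g n = true := by
      cases hg : g n with
      | false => exact absurd (hf.trans hg.symm) h1
      | true => rfl
    exact absurd hfg (key f g n h2 hf hg).ne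
  | true =>
    have hg : g n = false := by
      cases hg : g n with
      | true => exact absurd (hf.trans hg.symm) h1
      | false => rfl
    exact absurd hfg (key g f n (fun m hm => (h2 m hm).symm) hg hf).ne'

/-- **Many open subgroups.** -/
theorem many_open {F : NormalFilter G}
    (hun : ∀ H : Subgroup G, F.mem H → ∃ E : Subgroup G, F.mem E ∧ E ≤ H ∧
      ∀ K : Subgroup G, F.mem K → ∃ h ∈ H, ∀ x ∈ E, h * x * h⁻¹ ∈ K)
    (hno : ¬ ∃ N : Subgroup G, F.mem N ∧ ∀ V : Subgroup G, F.mem V → N ≤ V)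
    (K : Subgroup G) (hK : F.mem K) :
    ∃ Q : (ℕ → Bool) → Subgroup G, Function.Injective Q ∧ ∀ f, F.mem (Q f) ∧ Q f ≤ K := by
  obtain ⟨E, hE, hEK, hEu⟩ := hun K hK
  obtain ⟨E', hE', hE'E, hE'u⟩ := hun E hE
  obtain ⟨V, hV, hEV⟩ : ∃ V : Subgroup G, F.mem V ∧ ¬ E ≤ V := by
    by_contra hcon
    push Not at hcon
    exact hno ⟨E, hE, hcon⟩
  obtain ⟨x, hxK, hx⟩ := hEu (E' ⊓ V) (F.inter hE' hV)
  have hxE : cj x E ≤ E' ⊓ V := cj_le_of_forall hx
  have hDE : cj x E < E := by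
    refine lt_of_le_of_ne ((hxE.trans inf_le_left).trans hE'E) ?_
    intro h
    exact hEV (h ▸ hxE.trans inf_le_right)
  have hDu : ∀ W : Subgroup G, F.mem W → ∃ e ∈ E, cj e (cj x E) ≤ W := by
    intro W hW
    obtain ⟨e, he, h⟩ := hE'u W hW
    exact ⟨e, he, (cj_mono e (hxE.trans inf_le_left)).trans (cj_le_of_forall h)⟩
  obtain ⟨e, he, hex⟩ := hDu (cj x (cj x E)) (mem_of_cj x (mem_of_cj x hE))
  obtain ⟨Q, hQ, hQ2⟩ := exists_tree (GoodI (cj x E) E) (fun a b h => h.lt hDE)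
    (fun a b h => h.split2 rfl hDE he hex) (a₀ := cj x E) (b₀ := E)
    ⟨1, by rw [cj_one], by rw [cj_one]⟩
  exact ⟨Q, hQ, fun f => ⟨F.up (mem_of_cj x hE) (hQ2 f).1, (hQ2 f).2.trans hEK⟩⟩

/-- at least `2^ℵ₀` open subgroups below `K` -/
theorem continuum_le {F : NormalFilter G} (hU : Unif F)
    (hno : ∀ E, F.mem E → ∃ D, F.mem D ∧ ¬ E ≤ D) (K : Subgroup G) (hK : F.mem K) :
    Cardinal.continuum.{u} ≤ Cardinal.mk {P : Subgroup G // F.mem P ∧ P ≤ K} := by
  obtain ⟨Q, hQ, hQ2⟩ := many_open hU (by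
    rintro ⟨N, hN, h⟩
    obtain ⟨D, hD, h1⟩ := hno N hN
    exact h1 (h D hD)) K hK
  have h1 : Cardinal.mk (ULift.{u} (ℕ → Bool)) ≤
      Cardinal.mk {P : Subgroup G // F.mem P ∧ P ≤ K} := by
    apply Cardinal.mk_le_of_injective (f := fun x => ⟨Q x.down, hQ2 x.down⟩)
    intro x y hxy
    have h2 : Q x.down = Q y.down := congrArg Subtype.val hxy
    exact ULift.down_injective (hQ h2)
  refine le_trans (le_of_eq ?_) h1
  simp

end Vale.Agent.P323
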