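import Vale.Agent.P323.Lin
import Vale.Agent.P323.Defs3

namespace Vale.Agent.P323

universe u

/-- an automorphism of a well-order is the identity -/
theorem wo_rigid {Y : Type u} {r : Y → Y → Prop} [IsWellOrder Y r] {φ ψ : Y → Y}
    (h1 : ∀ y, φ (ψ y) = y) (h2 : ∀ y, ψ (φ y) = y) (hr : ∀ x y, r x y ↔ r (φ x) (φ y)) (y : Y) :
    φ y = y := by
  have wf : WellFounded r := IsWellFounded.wf
  induction y using wf.induction with
  | _ a ih =>
    rcases trichotomous_of r (φ a) a with h | h | h
    · have := ih _ h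
      have h3 := congrArg ψ this
      rw [h2, h2] at h3
      exact h3
    · exact h
    · have h3 : r (ψ a) a := by
        rw [hr, h1]
        exact h
      have h4 := ih _ h3
      rw [h1] at h4
      have h5 := h1 a
      rw [← h4] at h5
      exact h5

theorem least_of_order {G A : Type u} [Group G] [MulAction G A] {I : SuppIdeal G A}
    (hord : ∃ r : A → A → Prop, IsStrictTotalOrder A r ∧
      ∀ (g : G) (a b : A), r a b → r (g • a) (g • b))
    (hPP : PP (suppFilter I)) (hU : Unif (suppFilter I)) :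
    ∃ E, (suppFilter I).mem E ∧ ∀ D, (suppFilter I).mem D → E ≤ D := by
  obtain ⟨r, hr, hpres⟩ := hord
  let B : Type u := {a : A // ∃ e, I.mem e ∧ a ∈ e}
  let act : MulAction G B :=
    { smul := fun g b => ⟨g • b.1, by
        obtain ⟨e, he, hb⟩ := b.2
        exact ⟨_, I.image g he, ⟨b.1, hb, rfl⟩⟩⟩
      one_smul := fun b => Subtype.ext (one_smul _ b.1)
      mul_smul := fun g h b => Subtype.ext (mul_smul g h b.1) }
  let X : MSet (suppFilter I) :=
    { Pt := B
      act := act
      symPt := by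
        rintro ⟨a, e, he, ha⟩
        refine ⟨MulAction.stabilizer G a, ⟨e, he, fun g hg => hg a ha⟩, fun k hk => ?_⟩
        exact Subtype.ext hk
      car := Set.univ
      sym := ⟨⊤, (suppFilter I).top_mem, fun _ _ _ _ => Set.mem_univ _⟩ }
  have hlin : LinOrderable X := by
    let f : X.car → A := fun x => x.1.1
    have hf : Function.Injective f := fun x y h => Subtype.ext (Subtype.ext h)
    refine ⟨fun x y => r (f x) (f y), ?_, ⊤, (suppFilter I).top_mem, ?_⟩
    · haveI := hr
      exact
        { trichotomous := fun x y h1 h2 => hf (hr.trichotomous _ _ h1 h2)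
          irrefl := fun x => irrefl_of r (f x)
          trans := fun x y z h1 h2 => trans_of r h1 h2 }
    · intro k _ x y hx hy
      constructor
      · exact hpres k _ _
      · intro h
        have := hpres k⁻¹ _ _ h
        have e1 : k⁻¹ • (k • x.1.1) = x.1.1 := inv_smul_smul k _
        have e2 : k⁻¹ • (k • y.1.1) = y.1.1 := inv_smul_smul k _
        have h' : r (k⁻¹ • (k • x.1.1)) (k⁻¹ • (k • y.1.1)) := this
        rw [e1, e2] at h'
        exact h'
  obtain ⟨s, hs, K, ⟨e, he, hK⟩, hsym⟩ := wo_of_lin hPP hU X hlin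
  haveI := hs
  have hfix : ∀ k ∈ K, ∀ b : B, k • b.1 = b.1 := by
    intro k hk b
    let φ : G → X.car → X.car := fun g x => ⟨act.smul g x.1, Set.mem_univ _⟩
    have hinv : ∀ g x, φ g (φ g⁻¹ x) = x := fun g x =>
      Subtype.ext (Subtype.ext (smul_inv_smul g x.1.1))
    have hinv' : ∀ g x, φ g⁻¹ (φ g x) = x := fun g x =>
      Subtype.ext (Subtype.ext (inv_smul_smul g x.1.1))
    have := wo_rigid (r := s) (φ := φ k) (ψ := φ k⁻¹) (hinv k) (hinv' k)
      (fun x y => hsym k hk x y (Set.mem_univ _) (Set.mem_univ _)) ⟨b, Set.mem_univ _⟩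
    exact congrArg (fun x : X.car => x.1.1) this
  refine ⟨K, ⟨e, he, hK⟩, ?_⟩
  rintro D ⟨e', he', hD⟩ x hx
  exact hD x fun a ha => hfix x hx ⟨a, e', he', ha⟩

end Vale.Agent.P323
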