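import Vale.Agent.P323.Idx
import Vale.Agent.P323.Dens

namespace Vale.Agent.P323

universe u

variable {G : Type u} [Group G] {F : NormalFilter G}

theorem least_of_small (hPP : PP F) (hU : Unif F) (hs : SmallIndex F) :
    ∃ E, F.mem E ∧ ∀ D, F.mem D → E ≤ D := by
  by_contra hcon
  push Not at hcon
  obtain ⟨K₀, hK₀, hsm⟩ := hs
  obtain ⟨D, hD, hDK, K, hK, hle⟩ := count_le hPP hU hK₀
  exact absurd ((continuum_le hU hcon K hK).trans hle) (not_le.mpr (hsm D hD hDK))

end Vale.Agent.P323
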