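import Vale.Agent.P323.Main

namespace Vale.Agent.P323

universe u

variable {G : Type u} [Group G] {F : NormalFilter G}

theorem least_of_torsion (hU : Unif F)
    (ht : ∃ K : Subgroup G, F.mem K ∧ ∀ g ∈ K, IsOfFinOrder g) :
    ∃ E, F.mem E ∧ ∀ D, F.mem D → E ≤ D := by
  by_contra hcon
  push Not at hcon
  obtain ⟨K, hK, hfin⟩ := ht
  obtain ⟨E₀, hE₀, hE₀K, huniv⟩ := hU K hK
  obtain ⟨D, hD, hED⟩ := hcon E₀ hE₀
  obtain ⟨y, hyE, hyD⟩ := Set.not_subset.mp hED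
  obtain ⟨g, hgK, hg⟩ := huniv (E₀ ⊓ D) (F.inter hE₀ hD)
  have hg1 : ∀ x ∈ E₀, g * x * g⁻¹ ∈ E₀ := fun x hx => (hg x hx).1
  have hy' : g⁻¹ * y * g ∉ E₀ := by
    intro h
    apply hyD
    have := (hg _ h).2
    have e : g * (g⁻¹ * y * g) * g⁻¹ = y := by group
    rwa [e] at this
  obtain ⟨n, hn, hgn⟩ := isOfFinOrder_iff_pow_eq_one.mp (hfin g hgK)
  have h1 : g ^ (n : ℤ) ∈ LL E₀ g hg1 := by
    rw [zpow_natCast, hgn]
    exact (LL E₀ g hg1).one_mem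
  have h2 := zpow_LL hg1 hyE hy' h1
  omega

end Vale.Agent.P323
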