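import Vale.Agent.P323.Defs

/-!
# Permutation models: the partition principle gives a uniform open subgroup
-/

namespace Vale.Agent.P323

open Cardinal Set

universe u

variable {G : Type u} [Group G]

/-- some `H`-conjugate of `K₀` lies in `K` -/
def Hit (H K₀ K : Subgroup G) : Prop := ∃ h ∈ H, ∀ x ∈ K₀, h * x * h⁻¹ ∈ K

theorem Hit.refl (H K : Subgroup G) : Hit H K K := ⟨1, H.one_mem, fun x hx => by simpa using hx⟩

theorem Hit.mono {H K₀ K₁ K : Subgroup G} (h : K₁ ≤ K₀) (h1 : Hit H K₀ K) : Hit H K₁ K := by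
  obtain ⟨g, hg, h2⟩ := h1
  exact ⟨g, hg, fun x hx => h2 x (h hx)⟩

theorem Hit.trans {H K₀ K₁ K₂ : Subgroup G} (h1 : Hit H K₀ K₁) (h2 : Hit H K₁ K₂) :
    Hit H K₀ K₂ := by
  obtain ⟨g, hg, h3⟩ := h1
  obtain ⟨k, hk, h4⟩ := h2
  refine ⟨k * g, H.mul_mem hk hg, fun x hx => ?_⟩
  have := h4 _ (h3 x hx)
  simpa [mul_assoc] using this

/-- a finite family of open subgroups of `H` has an open lower bound -/
theorem exists_lower {F : NormalFilter G} {H : Subgroup G} (hH : F.mem H)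
    {S : Set {K : Subgroup G // F.mem K ∧ K ≤ H}} (hS : S.Finite) :
    ∃ H₀ : {K : Subgroup G // F.mem K ∧ K ≤ H}, ∀ K ∈ S, H₀.1 ≤ K.1 := by
  induction S, hS using Set.Finite.induction_on with
  | empty => exact ⟨⟨H, hH, le_rfl⟩, fun K hK => absurd hK (Set.notMem_empty K)⟩
  | @insert a S _ _ ih =>
    obtain ⟨H₀, h⟩ := ih
    refine ⟨⟨H₀.1 ⊓ a.1, F.inter H₀.2.1 a.2.1, inf_le_left.trans H₀.2.2⟩, ?_⟩
    intro K hK
    rcases Set.mem_insert_iff.1 hK with rfl | hK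
    · exact inf_le_right
    · exact inf_le_left.trans (h K hK)

/-- cardinals growing along a well-order, above a given one -/
theorem exists_growing (ι : Type u) [LinearOrder ι] [WellFoundedLT ι] (m : Cardinal.{u}) :
    ∃ a : ι → Cardinal.{u}, StrictMono a ∧ ∀ i, m ≤ a i := by
  obtain ⟨o, ho⟩ : ∃ o : ι → Ordinal.{u}, StrictMono o :=
    ⟨fun i => Ordinal.typein (α := ι) (· < ·) i, fun i j hij =>
      (Ordinal.typein_lt_typein (α := ι) (· < ·)).2 hij⟩
  refine ⟨fun i => preAleph (preAleph.symm m + o i), ?_, ?_⟩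
  · intro i j hij
    apply preAleph.strictMono
    exact (add_lt_add_iff_left _).2 (ho hij)
  · intro i
    calc m = preAleph (preAleph.symm m) := (preAleph.apply_symm_apply m).symm
      _ ≤ preAleph (preAleph.symm m + o i) := preAleph.monotone (le_self_add)

/-- the trivial set of the model -/
def trivSet (F : NormalFilter G) (Y : Type u) : MSet F where
  Pt := Y
  act := { smul := fun _ y => y, one_smul := fun _ => rfl, mul_smul := fun _ _ _ => rfl }
  symPt := fun _ => ⟨⊤, F.top_mem, fun _ _ => rfl⟩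
  car := Set.univ
  sym := ⟨⊤, F.top_mem, fun _ _ _ _ => Set.mem_univ _⟩

/-- the sum over `y : Y` of the orbits `H / L y` -/
def orbSum (F : NormalFilter G) {H : Subgroup G} (hH : F.mem H) (Y : Type u) (L : Y → Subgroup G)
    (hL : ∀ y, F.mem (L y)) : MSet F where
  Pt := Σ y : Y, G ⧸ L y
  act := { smul := fun g p => ⟨p.1, g • p.2⟩,
           one_smul := fun p => by
             change (⟨p.1, (1 : G) • p.2⟩ : Σ y : Y, G ⧸ L y) = p
             rw [one_smul]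
           mul_smul := fun g k p => by
             change (⟨p.1, (g * k) • p.2⟩ : Σ y : Y, G ⧸ L y) = ⟨p.1, g • k • p.2⟩
             rw [mul_smul] }
  symPt := by
    rintro ⟨y, q⟩
    obtain ⟨g, rfl⟩ := QuotientGroup.mk_surjective q
    refine ⟨_, F.conj g (hL y), ?_⟩
    rintro z ⟨x, hx, rfl⟩
    have h1 : (g * x * g⁻¹) • (QuotientGroup.mk g : G ⧸ L y) = QuotientGroup.mk g := by
      change QuotientGroup.mk (g * x * g⁻¹ * g) = _
      rw [inv_mul_cancel_right, QuotientGroup.eq]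
      simpa using (L y).inv_mem hx
    change (⟨y, (g * x * g⁻¹) • (QuotientGroup.mk g : G ⧸ L y)⟩ : Σ y : Y, G ⧸ L y) = ⟨y, _⟩
    rw [h1]
  car := {p | ∃ h ∈ H, p.2 = QuotientGroup.mk h}
  sym := by
    refine ⟨H, hH, ?_⟩
    rintro k hk ⟨y, q⟩ ⟨h, hh, hq⟩
    refine ⟨k * h, H.mul_mem hk hh, ?_⟩
    change k • q = _
    change q = _ at hq
    rw [hq]
    rfl

/-- **Uniform open subgroup.** In a permutation model satisfying the partition principle, every
open `H` has an open subgroup `H₀` such that each open `K ≤ H` contains an `H`-conjugate of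
`H₀`. -/
theorem uniform_of_PP {F : NormalFilter G} (hPP : PP F) {H : Subgroup G} (hH : F.mem H) :
    ∃ H₀ : Subgroup G, F.mem H₀ ∧ H₀ ≤ H ∧ ∀ K : Subgroup G, F.mem K → K ≤ H → Hit H H₀ K := by
  classical
  set I := {K : Subgroup G // F.mem K ∧ K ≤ H} with hI
  -- a family of least cardinality
  obtain ⟨S, hS, hmin⟩ : ∃ S : Set I, (∀ K : I, ∃ K₀ ∈ S, Hit H K₀.1 K.1) ∧
      ∀ S' : Set I, (∀ K : I, ∃ K₀ ∈ S', Hit H K₀.1 K.1) → #S ≤ #S' := by
    have hne : {c : Cardinal.{u} | ∃ S : Set I, (∀ K : I, ∃ K₀ ∈ S, Hit H K₀.1 K.1) ∧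
        #S = c}.Nonempty := ⟨#(Set.univ : Set I), Set.univ,
          fun K => ⟨K, Set.mem_univ _, Hit.refl H K.1⟩, rfl⟩
    obtain ⟨c, ⟨S, hS, hSc⟩, hc⟩ := WellFounded.has_min Cardinal.lt_wf _ hne
    refine ⟨S, hS, fun S' hS' => ?_⟩
    rw [hSc]
    exact not_lt.1 (hc _ ⟨S', hS', rfl⟩)
  by_cases hfin : S.Finite
  · obtain ⟨H₀, h₀⟩ := exists_lower hH hfin
    refine ⟨H₀.1, H₀.2.1, H₀.2.2, fun K hK hKH => ?_⟩
    obtain ⟨K₀, hK₀, h1⟩ := hS ⟨K, hK, hKH⟩
    exact h1.mono (h₀ K₀ hK₀)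
  exfalso
  have hinf : ℵ₀ ≤ #S := by
    rw [Cardinal.aleph0_le_mk_iff]
    exact Set.infinite_coe_iff.2 hfin
  set ι := (#S).ord.ToType with hι
  have : NoMaxOrder ι := Cardinal.noMaxOrder hinf
  have hιc : #ι = #S := Cardinal.mk_ord_toType _
  obtain ⟨e⟩ : Nonempty (ι ≃ S) := Cardinal.eq.1 hιc
  -- the unhit subgroups
  have hL : ∀ i : ι, ∃ L : I, ∀ t : ι, t ≤ i → ¬ Hit H (e t).1.1 L.1 := by
    intro i
    by_contra hcon
    push Not at hcon
    have h1 := hmin ((fun t : ι => (e t).1) '' Set.Iic i) (fun K => by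
      obtain ⟨t, ht, h2⟩ := hcon K
      exact ⟨(e t).1, ⟨t, ht, rfl⟩, h2⟩)
    obtain ⟨k, hk⟩ := exists_gt i
    have h2 : #(Set.Iic i) < #S := by
      have h3 : #(Set.Iio k) < #ι := Cardinal.mk_Iio_lt k (by
        rw [Cardinal.mk_ord_toType, Ordinal.type_toType])
      rw [hιc] at h3
      refine lt_of_le_of_lt (Cardinal.mk_le_mk_of_subset ?_) h3
      intro t ht
      exact lt_of_le_of_lt ht hk
    exact absurd (h1.trans Cardinal.mk_image_le) (not_le.2 h2)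
  choose L hL using hL
  obtain ⟨a, ha, ham⟩ := exists_growing ι (max #G #S)
  -- the sets of the model
  let Y : Type u := Σ i : ι, (a i).out
  let XX : MSet F := orbSum F hH Y (fun y => (L y.1).1) (fun y => (L y.1).2.1)
  obtain ⟨j, ⟨K, hK, hjK⟩, hj⟩ := hPP XX (trivSet F Y)
    ⟨fun p => ⟨p.1.1, Set.mem_univ _⟩, ⟨⊤, F.top_mem, fun k _ x hx => rfl⟩,
      fun y => ⟨⟨⟨y.1, QuotientGroup.mk 1⟩, 1, H.one_mem, rfl⟩, rfl⟩⟩
  let H₀ : I := ⟨K ⊓ H, F.inter hK hH, inf_le_right⟩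
  have hhit : ∀ y : (trivSet F Y).car, Hit H H₀.1 (L (j y).1.1.1).1 := by
    intro y
    obtain ⟨g, hg, hq⟩ := (j y).2
    refine ⟨g⁻¹, H.inv_mem hg, ?_⟩
    rintro x ⟨hxK, hxH⟩
    have h1 := hjK x hxK y (Set.mem_univ _)
    have h2 : (j y).1 = (⟨(j y).1.1, x • (j y).1.2⟩ : Σ y : Y, G ⧸ (L y.1).1) := h1
    have h3 : x • (j y).1.2 = (j y).1.2 := by
      have h4 : (⟨(j y).1.1, (j y).1.2⟩ : Σ y : Y, G ⧸ (L y.1).1) =
        ⟨(j y).1.1, x • (j y).1.2⟩ := h2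
      exact (eq_of_heq (Sigma.mk.inj_iff.1 h4).2).symm
    rw [hq] at h3
    change QuotientGroup.mk (x * g) = _ at h3
    rw [QuotientGroup.eq] at h3
    have h4 := (L (j y).1.1.1).1.inv_mem h3
    simpa [mul_assoc] using h4
  obtain ⟨K₀, hK₀, hKH₀⟩ := hS H₀
  obtain ⟨i₀, hi₀⟩ := e.surjective ⟨K₀, hK₀⟩
  have hlt : ∀ y : (trivSet F Y).car, (j y).1.1.1 < i₀ := by
    intro y
    by_contra hcon
    rw [not_lt] at hcon
    apply hL _ i₀ hcon
    rw [hi₀]
    exact hKH₀.trans (hhit y)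
  -- cardinalities
  obtain ⟨i₁, hi₁⟩ := exists_gt i₀
  have hemb : ∀ i, i < i₀ → Nonempty ((a i).out ↪ (a i₀).out) := by
    intro i hi
    rw [← Cardinal.le_def, Cardinal.mk_out, Cardinal.mk_out]
    exact (ha hi).le
  let f : ∀ i : ι, (a i).out → Option (a i₀).out := fun i x =>
    if h : i < i₀ then some ((hemb i h).some x) else none
  have hf : ∀ i, i < i₀ → Function.Injective (f i) := by
    intro i hi x y hxy
    simp only [f, dif_pos hi, Option.some.injEq] at hxy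
    exact (hemb i hi).some.injective hxy
  let Φ : (a i₁).out → ι × (Option (a i₀).out × G) := fun x =>
    let p := j ⟨⟨i₁, x⟩, Set.mem_univ _⟩
    (p.1.1.1, f _ p.1.1.2, p.2.choose)
  have hΦ : Function.Injective Φ := by
    intro x y hxy
    have hx := (j ⟨⟨i₁, x⟩, Set.mem_univ _⟩).2.choose_spec.2
    have hy := (j ⟨⟨i₁, y⟩, Set.mem_univ _⟩).2.choose_spec.2
    have hxlt := hlt ⟨⟨i₁, x⟩, Set.mem_univ _⟩
    have key : j ⟨⟨i₁, x⟩, Set.mem_univ _⟩ = j ⟨⟨i₁, y⟩, Set.mem_univ _⟩ := by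
      simp only [Φ, Prod.mk.injEq] at hxy
      obtain ⟨h1, h2, h3⟩ := hxy
      rw [h3] at hx
      clear h3
      generalize (j ⟨⟨i₁, y⟩, Set.mem_univ _⟩).2.choose = g at hx hy
      generalize j ⟨⟨i₁, x⟩, Set.mem_univ _⟩ = p at h1 h2 hx hxlt ⊢
      generalize j ⟨⟨i₁, y⟩, Set.mem_univ _⟩ = q at h1 h2 hy ⊢
      obtain ⟨⟨⟨ip, ap⟩, cp⟩, hp⟩ := p
      obtain ⟨⟨⟨iq, aq⟩, cq⟩, hq⟩ := q
      change ip = iq at h1
      subst h1
      have h4 : ap = aq := hf _ hxlt h2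
      subst h4
      have h5 : cp = cq := hx.trans hy.symm
      subst h5
      rfl
    have h1 := hj key
    have h2 : (⟨i₁, x⟩ : Σ i : ι, (a i).out) = ⟨i₁, y⟩ := congrArg Subtype.val h1
    exact eq_of_heq (Sigma.mk.inj_iff.1 h2).2
  have hcard : a i₁ ≤ a i₀ := by
    have h1 := Cardinal.mk_le_of_injective hΦ
    rw [Cardinal.mk_out] at h1
    have hinf' : ℵ₀ ≤ a i₀ := (hinf.trans (le_max_right _ _)).trans (ham i₀)
    have h2 : #(ι × (Option (a i₀).out × G)) ≤ a i₀ := by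
      rw [Cardinal.mk_prod, Cardinal.mk_prod, Cardinal.lift_id, Cardinal.lift_id,
        Cardinal.lift_id, Cardinal.lift_id, Cardinal.mk_option, Cardinal.mk_out, hιc]
      have h3 : a i₀ + 1 ≤ a i₀ := by
        rw [Cardinal.add_one_eq hinf']
      have h4 : #G ≤ a i₀ := (le_max_left _ _).trans (ham i₀)
      have h5 : #S ≤ a i₀ := (le_max_right _ _).trans (ham i₀)
      calc #S * ((a i₀ + 1) * #G) ≤ a i₀ * (a i₀ * a i₀) :=
            mul_le_mul' h5 (mul_le_mul' h3 h4)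
        _ = a i₀ := by rw [Cardinal.mul_eq_self hinf', Cardinal.mul_eq_self hinf']
    exact h1.trans h2
  exact absurd hcard (not_le.2 (ha hi₁))

/-- the same for every open `K` -/
theorem univ {F : NormalFilter G} (hPP : PP F) (H : Subgroup G) (hH : F.mem H) :
    ∃ E : Subgroup G, F.mem E ∧ E ≤ H ∧
      ∀ K : Subgroup G, F.mem K → ∃ h ∈ H, ∀ x ∈ E, h * x * h⁻¹ ∈ K := by
  obtain ⟨E, hE, hEH, h⟩ := uniform_of_PP hPP hH
  refine ⟨E, hE, hEH, fun K hK => ?_⟩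
  obtain ⟨g, hg, h1⟩ := h (K ⊓ H) (F.inter hK hH) inf_le_right
  exact ⟨g, hg, fun x hx => (h1 x hx).1⟩

end Vale.Agent.P323
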