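import Vale.Agent.P323.Defs
import Vale.Agent.P323.Uniform

/-!
# Permutation models: choice for well-orderable families gives a uniform open subgroup
-/

namespace Vale.Agent.P323

universe u

variable {G : Type u} [Group G]

theorem wellOrderable_trivSet (F : NormalFilter G) (Y : Type u) :
    WellOrderable (trivSet F Y) := by
  obtain ⟨r, hr⟩ : ∃ r : (trivSet F Y).car → (trivSet F Y).car → Prop,
      IsWellOrder (trivSet F Y).car r := ⟨WellOrderingRel, inferInstance⟩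
  exact ⟨r, hr, ⊤, F.top_mem, fun k _ x y hx hy => Iff.rfl⟩

/-- **Uniform open subgroup** from choice for well-orderable families. -/
theorem univ_of_WOChoice {F : NormalFilter G} (hW : WOChoice F) (H : Subgroup G) (hH : F.mem H) :
    ∃ E : Subgroup G, F.mem E ∧ E ≤ H ∧
      ∀ K : Subgroup G, F.mem K → ∃ h ∈ H, ∀ x ∈ E, h * x * h⁻¹ ∈ K := by
  let Y : Type u := {K : Subgroup G // F.mem K}
  let XX : MSet F := orbSum F hH Y (fun y => y.1) (fun y => y.2)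
  obtain ⟨s, ⟨K, hK, hsK⟩, hs⟩ := hW XX (trivSet F Y)
    (fun p => ⟨p.1.1, Set.mem_univ _⟩) ⟨⊤, F.top_mem, fun k _ x hx => rfl⟩
    (fun y => ⟨⟨⟨y.1, QuotientGroup.mk 1⟩, 1, H.one_mem, rfl⟩, rfl⟩)
    (wellOrderable_trivSet F Y)
  refine ⟨K ⊓ H, F.inter hK hH, inf_le_right, ?_⟩
  intro K' hK'
  have hy := hs ⟨⟨K', hK'⟩, Set.mem_univ _⟩
  obtain ⟨g, hg, hq⟩ := (s ⟨⟨K', hK'⟩, Set.mem_univ _⟩).2
  have hinv := fun (x : G) (hx : x ∈ K) => hsK x hx ⟨⟨K', hK'⟩, Set.mem_univ _⟩ (Set.mem_univ _)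
  refine ⟨g⁻¹, H.inv_mem hg, ?_⟩
  rintro x ⟨hxK, hxH⟩
  have h2 := hinv x hxK
  change (s ⟨⟨K', hK'⟩, Set.mem_univ _⟩).1 = (⟨(s ⟨⟨K', hK'⟩, Set.mem_univ _⟩).1.1,
    x • (s ⟨⟨K', hK'⟩, Set.mem_univ _⟩).1.2⟩ : Σ y : Y, G ⧸ y.1) at h2
  clear hinv hsK
  generalize s ⟨⟨K', hK'⟩, Set.mem_univ _⟩ = p at hy hq h2
  obtain ⟨⟨y, q⟩, hp⟩ := p
  have h3 : y = ⟨K', hK'⟩ := congrArg Subtype.val hy
  subst h3
  change q = _ at hq
  have h4 : q = x • q := eq_of_heq (Sigma.mk.inj_iff.1 h2).2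
  rw [hq] at h4
  change _ = QuotientGroup.mk (x * g) at h4
  rw [QuotientGroup.eq] at h4
  simpa [mul_assoc] using h4

end Vale.Agent.P323
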