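import Vale.Agent.P323.Lin
import Vale.Agent.P323.Small
import Vale.Agent.P323.WOC
import Vale.Agent.P323.Coded2
import Vale.Agent.P323.Tors
import Vale.Agent.P323.Ord

namespace Vale.Agent.P323

universe u

theorem final :
    (∀ (G : Type u) [Group G] (F : NormalFilter G), (WOChoice F ∨ PP F) →
      ((∃ n : ℕ, 2 ≤ n ∧ ChoiceN F n) ∨
        (∃ K : Subgroup G, F.mem K ∧ ∀ g ∈ K, IsOfFinOrder g)) → AC F) ∧
    (∀ (G : Type u) [Group G] (F : NormalFilter G), PP F →
      ∀ X : MSet F, LinOrderable X → WellOrderable X) ∧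
    (∀ (G : Type u) [Group G] (F : NormalFilter G), SmallIndex F → (PP F ↔ AC F)) ∧
    (∀ (G A : Type u) [Group G] [MulAction G A] (I : SuppIdeal G A),
      ((∀ e, I.mem e → e.Finite) ∧ Cardinal.mk A < Cardinal.continuum.{u}) ∨
        (∃ r : A → A → Prop, IsStrictTotalOrder A r ∧
          ∀ (g : G) (a b : A), r a b → r (g • a) (g • b)) ∨
        (∀ a b : A, ∃ g : G, g • a = b ∧ g • b = a ∧ ∀ c, c ≠ a → c ≠ b → g • c = c) →
      (PP (suppFilter I) ↔ AC (suppFilter I))) ∧
    (∀ (G A : Type u) [Group G] [MulAction G A] (I : SuppIdeal G A), PP (suppFilter I) →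
      ∃ C : Set A, I.mem C ∧ ∀ P : Subgroup G, (suppFilter I).mem P →
        (∀ g ∈ P, ∀ a ∈ C, g • a = a) →
          ∃ e : Set A, I.mem e ∧ ∀ g, g ∈ P ↔ ∀ a ∈ e, g • a = a) := by
  have hsmall : ∀ (G : Type u) [Group G] (F : NormalFilter G), SmallIndex F → (PP F ↔ AC F) := by
    intro G _ F hs
    refine ⟨fun hPP => ?_, fun hAC => pp_of_ac hAC⟩
    have hU : Unif F := fun H hH => univ hPP H hH
    obtain ⟨E, hE, hl⟩ := least_of_small hPP hU hs
    exact ac_of_least hE hl
  refine ⟨?_, ?_, hsmall, ?_, ?_⟩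
  · rintro G _ F hW hC
    have hU : Unif F := by
      rcases hW with hW | hPP
      · exact fun H hH => univ_of_WOChoice hW H hH
      · exact fun H hH => univ hPP H hH
    rcases hC with ⟨n, hn, hC⟩ | ht
    · obtain ⟨E, hE, hl⟩ := least_of_choiceN hU hn hC
      exact ac_of_least hE hl
    · obtain ⟨E, hE, hl⟩ := least_of_torsion hU ht
      exact ac_of_least hE hl
  · intro G _ F hPP X hX
    exact wo_of_lin hPP (fun H hH => univ hPP H hH) X hX
  · intro G A _ _ I h
    rcases h with ⟨hfin, hA⟩ | hord | hsw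
    · exact hsmall G _ (smallIndex_supp hfin hA)
    · refine ⟨fun hPP => ?_, fun hAC => pp_of_ac hAC⟩
      obtain ⟨E, hE, hl⟩ := least_of_order hord hPP (fun H hH => univ hPP H hH)
      exact ac_of_least hE hl
    · refine ⟨fun hPP => ?_, fun hAC => pp_of_ac hAC⟩
      obtain ⟨E, hE, hl⟩ := least_of_swaps hsw hPP (fun H hH => univ hPP H hH)
      exact ac_of_least hE hl
  · intro G A _ _ I hPP
    exact coded_final hPP (fun H hH => univ hPP H hH)

end Vale.Agent.P323
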