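import Mathlib

namespace Vale.Agent.P323

universe u

variable {G : Type u} [Group G]

theorem conj_pow_mem {E : Subgroup G} {g : G} (hg : ∀ x ∈ E, g * x * g⁻¹ ∈ E) (m : ℕ) {x : G}
    (hx : x ∈ E) : g ^ m * x * (g ^ m)⁻¹ ∈ E := by
  induction m with
  | zero => simpa using hx
  | succ m ih =>
    have := hg _ ih
    have e : g * (g ^ m * x * (g ^ m)⁻¹) * g⁻¹ = g ^ (m + 1) * x * (g ^ (m + 1))⁻¹ := by
      rw [pow_succ']; group
    rwa [e] at this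

theorem conj_pow_le {E : Subgroup G} {g : G} (hg : ∀ x ∈ E, g * x * g⁻¹ ∈ E) {m m' : ℕ}
    (h : m ≤ m') {x : G} (hx : g ^ m * x * (g ^ m)⁻¹ ∈ E) :
    g ^ m' * x * (g ^ m')⁻¹ ∈ E := by
  obtain ⟨c, rfl⟩ := Nat.exists_eq_add_of_le h
  have := conj_pow_mem hg c hx
  have e : g ^ c * (g ^ m * x * (g ^ m)⁻¹) * (g ^ c)⁻¹ = g ^ (m + c) * x * (g ^ (m + c))⁻¹ := by
    rw [add_comm, pow_add]; group
  rwa [e] at this

/-- the increasing union of the conjugates `g^{-m} E g^m` -/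
def LL (E : Subgroup G) (g : G) (hg : ∀ x ∈ E, g * x * g⁻¹ ∈ E) : Subgroup G where
  carrier := {x | ∃ m : ℕ, g ^ m * x * (g ^ m)⁻¹ ∈ E}
  one_mem' := ⟨0, by simp [E.one_mem]⟩
  mul_mem' := by
    rintro a b ⟨m, hm⟩ ⟨m', hm'⟩
    refine ⟨max m m', ?_⟩
    have h1 := conj_pow_le hg (le_max_left m m') hm
    have h2 := conj_pow_le hg (le_max_right m m') hm'
    have := E.mul_mem h1 h2
    have e : g ^ max m m' * a * (g ^ max m m')⁻¹ * (g ^ max m m' * b * (g ^ max m m')⁻¹) =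
      g ^ max m m' * (a * b) * (g ^ max m m')⁻¹ := by group
    rwa [e] at this
  inv_mem' := by
    rintro a ⟨m, hm⟩
    refine ⟨m, ?_⟩
    have := E.inv_mem hm
    have e : (g ^ m * a * (g ^ m)⁻¹)⁻¹ = g ^ m * a⁻¹ * (g ^ m)⁻¹ := by group
    rwa [e] at this

theorem le_LL (E : Subgroup G) (g : G) (hg : ∀ x ∈ E, g * x * g⁻¹ ∈ E) : E ≤ LL E g hg :=
  fun x hx => ⟨0, by simpa using hx⟩

theorem conj_LL (E : Subgroup G) (g : G) (hg : ∀ x ∈ E, g * x * g⁻¹ ∈ E) (k : ℤ) {x : G}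
    (hx : x ∈ LL E g hg) : g ^ k * x * (g ^ k)⁻¹ ∈ LL E g hg := by
  have key : g ∈ Subgroup.normalizer (LL E g hg : Set G) := by
    rw [Subgroup.mem_normalizer_iff]
    intro h
    constructor
    · rintro ⟨m, hm⟩
      refine ⟨m, ?_⟩
      have := conj_pow_le hg (Nat.le_succ m) hm
      have e : g ^ (m.succ) * h * (g ^ (m.succ))⁻¹ = g ^ m * (g * h * g⁻¹) * (g ^ m)⁻¹ := by
        rw [Nat.succ_eq_add_one, pow_succ]; group
      rwa [e] at this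
    · rintro ⟨m, hm⟩
      refine ⟨m + 1, ?_⟩
      have e : g ^ (m + 1) * h * (g ^ (m + 1))⁻¹ = g ^ m * (g * h * g⁻¹) * (g ^ m)⁻¹ := by
        rw [pow_succ]; group
      rwa [e]
  have := Subgroup.zpow_mem _ key k
  rw [Subgroup.mem_normalizer_iff] at this
  exact (this x).mp hx

theorem zpow_LL {E : Subgroup G} {g : G} (hg : ∀ x ∈ E, g * x * g⁻¹ ∈ E) {y : G} (hy : y ∈ E)
    (hy' : g⁻¹ * y * g ∉ E) {k : ℤ} (hk : g ^ k ∈ LL E g hg) : k = 0 := by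
  have main : ∀ c : ℕ, g ^ (c + 1) ∈ E → False := by
    intro c hc
    apply hy'
    have h1 : (g ^ (c + 1))⁻¹ * y * g ^ (c + 1) ∈ E :=
      E.mul_mem (E.mul_mem (E.inv_mem hc) hy) hc
    have h2 := conj_pow_mem hg c h1
    have e : g ^ c * ((g ^ (c + 1))⁻¹ * y * g ^ (c + 1)) * (g ^ c)⁻¹ = g⁻¹ * y * g := by
      rw [pow_succ]; group
    rwa [e] at h2
  obtain ⟨m, hm⟩ := hk
  have e : g ^ m * g ^ k * (g ^ m)⁻¹ = g ^ k := by
    rw [← zpow_natCast, ← zpow_neg, ← zpow_add, ← zpow_add]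
    congr 1; ring
  rw [e] at hm
  by_contra hne
  rcases lt_or_gt_of_ne hne with h | h
  · obtain ⟨c, hc⟩ : ∃ c : ℕ, -k = (c : ℤ) + 1 := ⟨(-k - 1).toNat, by omega⟩
    apply main c
    have := E.inv_mem hm
    rw [← zpow_neg, hc] at this
    exact_mod_cast this
  · obtain ⟨c, hc⟩ : ∃ c : ℕ, k = (c : ℤ) + 1 := ⟨(k - 1).toNat, by omega⟩
    apply main c
    rw [hc] at hm
    exact_mod_cast hm

/-- `L <g^n>` -/
def MM (E : Subgroup G) (g : G) (hg : ∀ x ∈ E, g * x * g⁻¹ ∈ E) (n : ℤ) : Subgroup G where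
  carrier := {x | ∃ k : ℤ, x * (g ^ (n * k))⁻¹ ∈ LL E g hg}
  one_mem' := ⟨0, by simp [(LL E g hg).one_mem]⟩
  mul_mem' := by
    rintro a b ⟨k, hk⟩ ⟨k', hk'⟩
    refine ⟨k + k', ?_⟩
    have h2 := conj_LL E g hg (n * k) hk'
    have := (LL E g hg).mul_mem hk h2
    have e : a * (g ^ (n * k))⁻¹ * (g ^ (n * k) * (b * (g ^ (n * k'))⁻¹) * (g ^ (n * k))⁻¹) =
        a * b * (g ^ (n * (k + k')))⁻¹ := by
      rw [mul_add, add_comm (n * k), zpow_add]; group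
    rwa [e] at this
  inv_mem' := by
    rintro a ⟨k, hk⟩
    refine ⟨-k, ?_⟩
    have h2 := conj_LL E g hg (-(n * k)) ((LL E g hg).inv_mem hk)
    have e : g ^ (-(n * k)) * (a * (g ^ (n * k))⁻¹)⁻¹ * (g ^ (-(n * k)))⁻¹ =
        a⁻¹ * (g ^ (n * -k))⁻¹ := by
      rw [mul_neg, zpow_neg]; group
    rwa [e] at h2

theorem LL_le_MM (E : Subgroup G) (g : G) (hg : ∀ x ∈ E, g * x * g⁻¹ ∈ E) (n : ℤ) :
    LL E g hg ≤ MM E g hg n := fun x hx => ⟨0, by simpa using hx⟩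

theorem MM_le {E K : Subgroup G} {g : G} (hg : ∀ x ∈ E, g * x * g⁻¹ ∈ E) (hE : E ≤ K)
    (hgK : g ∈ K) (n : ℤ) : MM E g hg n ≤ K := by
  have hL : LL E g hg ≤ K := by
    rintro x ⟨m, hm⟩
    have h1 := hE hm
    have h2 := K.mul_mem (K.mul_mem (K.inv_mem (K.pow_mem hgK m)) h1) (K.pow_mem hgK m)
    have e : (g ^ m)⁻¹ * (g ^ m * x * (g ^ m)⁻¹) * g ^ m = x := by group
    rwa [e] at h2
  rintro x ⟨k, hk⟩
  have := K.mul_mem (hL hk) (K.zpow_mem hgK (n * k))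
  rwa [inv_mul_cancel_right] at this

theorem MM_le_one {E : Subgroup G} {g : G} (hg : ∀ x ∈ E, g * x * g⁻¹ ∈ E) (n : ℤ) :
    MM E g hg n ≤ MM E g hg 1 := by
  rintro x ⟨k, hk⟩
  exact ⟨n * k, by rwa [one_mul]⟩

theorem zpow_MM {E : Subgroup G} {g : G} (hg : ∀ x ∈ E, g * x * g⁻¹ ∈ E) {y : G} (hy : y ∈ E)
    (hy' : g⁻¹ * y * g ∉ E) {n k : ℤ} : g ^ k ∈ MM E g hg n ↔ n ∣ k := by
  constructor
  · rintro ⟨c, hc⟩
    rw [← zpow_neg, ← zpow_add] at hc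
    have := zpow_LL hg hy hy' hc
    exact ⟨c, by linarith⟩
  · rintro ⟨c, rfl⟩
    exact ⟨c, by rw [mul_inv_cancel]; exact (LL E g hg).one_mem⟩

theorem index_MM {E : Subgroup G} {g : G} (hg : ∀ x ∈ E, g * x * g⁻¹ ∈ E) {y : G} (hy : y ∈ E)
    (hy' : g⁻¹ * y * g ∉ E) (n : ℕ) :
    ((MM E g hg n).subgroupOf (MM E g hg 1)).index = Nat.card (ZMod n) := by
  classical
  have hex : ∀ x : MM E g hg 1, ∃ k : ℤ, (x : G) * (g ^ k)⁻¹ ∈ LL E g hg := by
    rintro ⟨x, k, hk⟩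
    exact ⟨k, by rwa [one_mul] at hk⟩
  choose d hd using hex
  have huniq : ∀ (x : MM E g hg 1) (k : ℤ), (x : G) * (g ^ k)⁻¹ ∈ LL E g hg → d x = k := by
    intro x k hk
    have h1 := (LL E g hg).mul_mem ((LL E g hg).inv_mem (hd x)) hk
    have e : ((x : G) * (g ^ d x)⁻¹)⁻¹ * ((x : G) * (g ^ k)⁻¹) = g ^ (d x - k) := by
      rw [sub_eq_add_neg, zpow_add, zpow_neg]; group
    rw [e] at h1
    have := zpow_LL hg hy hy' h1
    linarith
  let φ : MM E g hg 1 →* Multiplicative (ZMod n) :=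
    { toFun := fun x => Multiplicative.ofAdd ((d x : ℤ) : ZMod n)
      map_one' := by
        have : d 1 = 0 := huniq 1 0 (by simp [(LL E g hg).one_mem])
        rw [this]; simp
      map_mul' := by
        intro a b
        have : d (a * b) = d a + d b := by
          apply huniq
          have h2 := conj_LL E g hg (d a) (hd b)
          have := (LL E g hg).mul_mem (hd a) h2
          have e : (a : G) * (g ^ d a)⁻¹ * (g ^ d a * ((b : G) * (g ^ d b)⁻¹) * (g ^ d a)⁻¹) =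
              ((a * b : MM E g hg 1) : G) * (g ^ (d a + d b))⁻¹ := by
            rw [add_comm (d a), zpow_add]; push_cast; group
          rwa [e] at this
        rw [this, Int.cast_add, ofAdd_add] }
  have hker : φ.ker = (MM E g hg n).subgroupOf (MM E g hg 1) := by
    ext x
    rw [MonoidHom.mem_ker, Subgroup.mem_subgroupOf]
    have h0 : φ x = 1 ↔ ((n : ℤ) ∣ d x) := by
      rw [← ZMod.intCast_zmod_eq_zero_iff_dvd]
      exact Iff.rfl
    rw [h0]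
    constructor
    · rintro ⟨c, hc⟩
      refine ⟨c, ?_⟩
      rw [← hc]; exact hd x
    · rintro ⟨c, hc⟩
      exact ⟨c, huniq x _ hc⟩
  have hsurj : Function.Surjective φ := by
    intro z
    obtain ⟨k, hk⟩ := ZMod.intCast_surjective (Multiplicative.toAdd z)
    have hmem : g ^ k ∈ MM E g hg 1 := (zpow_MM hg hy hy').mpr (one_dvd k)
    refine ⟨⟨g ^ k, hmem⟩, ?_⟩
    have : d ⟨g ^ k, hmem⟩ = k := by
      apply huniq
      simp [(LL E g hg).one_mem]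
    show Multiplicative.ofAdd ((d ⟨g ^ k, hmem⟩ : ℤ) : ZMod n) = z
    rw [this, hk]; rfl
  rw [← hker, Subgroup.index_ker, MonoidHom.range_eq_top.mpr hsurj]
  rw [Subgroup.card_top]
  rfl

end Vale.Agent.P323
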