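import Vale.Agent.P323.Main
import Vale.Agent.P323.Defs2

namespace Vale.Agent.P323

universe u

variable {G : Type u} [Group G] {F : NormalFilter G}

theorem coded (hPP : PP F) (hU : Unif F) {K₀ : Subgroup G} (hK₀ : F.mem K₀) :
    ∃ D : Subgroup G, F.mem D ∧ D ≤ K₀ ∧ ∃ K : Subgroup G, F.mem K ∧ K ≤ K₀ ∧
      ∀ P : Subgroup G, F.mem P → P ≤ K → ∃ h ∈ K₀, ∀ x, x ∈ P ↔ x ∈ K ∧ h⁻¹ * x * h ∈ D := by
  obtain ⟨D, hD, hDK, huniv⟩ := hU K₀ hK₀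
  refine ⟨D, hD, hDK, ?_⟩
  let ι : Type u := {M : Subgroup G // F.mem M ∧ D ≤ M}
  let E : ι → Subgroup G := fun _ => D
  let M : ι → Subgroup G := fun p => p.1
  let κ : ι → Type u := fun _ => PUnit
  obtain ⟨K, hK, hKK, j, hinj, hj⟩ := orb_inj hPP hK₀ (E := E) (M := M) (fun _ => hD)
    (fun p => p.2.1) (fun p => p.2.2) κ
  refine ⟨K, hK, hKK, ?_⟩
  intro P hP hPK
  obtain ⟨h, hh, hhP⟩ := huniv P hP
  let M₁ : Subgroup G := P.comap (MulAut.conj h).toMonoidHom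
  have hM₁ : ∀ x, x ∈ M₁ ↔ h * x * h⁻¹ ∈ P := fun x => Iff.rfl
  have hM₁F : F.mem M₁ := by
    refine F.up (F.conj h⁻¹ hP) ?_
    rintro x ⟨p, hp, rfl⟩
    rw [hM₁]
    have : h * ((MulAut.conj h⁻¹).toMonoidHom p) * h⁻¹ = p := by
      simp [mul_assoc]
    rw [this]
    exact hp
  let i : ι := ⟨M₁, hM₁F, fun x hx => (hM₁ x).mpr (hhP x hx)⟩
  have ht : CP.mk M κ i h PUnit.unit ∈ orbCar K₀ M κ := mk_mem_orb hh
  obtain ⟨i', h', hh', t', hs⟩ := orb_exists (j ⟨_, ht⟩).2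
  refine ⟨h', hh', ?_⟩
  have hfix1 : ∀ k, k • CP.mk M κ i h PUnit.unit = CP.mk M κ i h PUnit.unit ↔ k ∈ P := by
    intro k
    rw [CP.smul_mk, CP.mk_eq]
    have e : h * ((k * h)⁻¹ * h) * h⁻¹ = k⁻¹ := by group
    constructor
    · rintro ⟨h1, -⟩
      have h2 := (hM₁ _).mp h1
      rw [e] at h2
      simpa using P.inv_mem h2
    · intro hk
      refine ⟨(hM₁ _).mpr ?_, rfl⟩
      rw [e]
      exact P.inv_mem hk
  have hfix2 : ∀ k, k • CP.mk E κ i' h' t' = CP.mk E κ i' h' t' ↔ h'⁻¹ * k * h' ∈ D := by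
    intro k
    rw [CP.smul_mk, CP.mk_eq]
    have e : ((k * h')⁻¹ * h')⁻¹ = h'⁻¹ * k * h' := by group
    constructor
    · rintro ⟨h1, -⟩
      have h2 := D.inv_mem h1
      rwa [e] at h2
    · intro hk
      refine ⟨?_, rfl⟩
      have h2 := D.inv_mem hk
      rw [← e, inv_inv] at h2
      exact h2
  intro x
  constructor
  · intro hx
    refine ⟨hPK hx, ?_⟩
    rw [← hfix2]
    have h1 := hj x (hPK hx) ⟨_, ht⟩ (smul_mem_orb ht (hKK (hPK hx)))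
    have h2 : (⟨x • CP.mk M κ i h PUnit.unit, smul_mem_orb ht (hKK (hPK hx))⟩ :
        orbCar K₀ M κ) = ⟨_, ht⟩ := Subtype.ext ((hfix1 x).mpr hx)
    rw [h2, hs] at h1
    exact h1.symm
  · rintro ⟨hxK, hx⟩
    rw [← hfix1]
    have h1 := hj x hxK ⟨_, ht⟩ (smul_mem_orb ht (hKK hxK))
    rw [hs, (hfix2 x).mpr hx, ← hs] at h1
    exact congrArg Subtype.val (hinj (Subtype.ext h1))

theorem count_le (hPP : PP F) (hU : Unif F) {K₀ : Subgroup G} (hK₀ : F.mem K₀) :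
    ∃ D : Subgroup G, F.mem D ∧ D ≤ K₀ ∧ ∃ K : Subgroup G, F.mem K ∧
      Cardinal.mk {P : Subgroup G // F.mem P ∧ P ≤ K} ≤ Cardinal.mk (K₀ ⧸ D.subgroupOf K₀) := by
  obtain ⟨D, hD, hDK, K, hK, hKK, hcode⟩ := coded hPP hU hK₀
  refine ⟨D, hD, hDK, K, hK, ?_⟩
  choose h hh hP using fun P : {P : Subgroup G // F.mem P ∧ P ≤ K} => hcode P.1 P.2.1 P.2.2
  refine Cardinal.mk_le_of_injective
    (f := fun P => (((⟨h P, hh P⟩ : K₀)) : K₀ ⧸ D.subgroupOf K₀)) ?_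
  intro P Q hPQ
  have h1 : (⟨h P, hh P⟩ : K₀)⁻¹ * ⟨h Q, hh Q⟩ ∈ D.subgroupOf K₀ := QuotientGroup.eq.mp hPQ
  rw [Subgroup.mem_subgroupOf] at h1
  have hd : (h P)⁻¹ * h Q ∈ D := h1
  apply Subtype.ext
  ext x
  rw [hP P x, hP Q x]
  have e : (h Q)⁻¹ * x * h Q = ((h P)⁻¹ * h Q)⁻¹ * ((h P)⁻¹ * x * h P) * ((h P)⁻¹ * h Q) := by
    group
  constructor
  · rintro ⟨h2, h3⟩
    refine ⟨h2, ?_⟩
    rw [e]
    exact D.mul_mem (D.mul_mem (D.inv_mem hd) h3) hd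
  · rintro ⟨h2, h3⟩
    refine ⟨h2, ?_⟩
    have e' : (h P)⁻¹ * x * h P = ((h P)⁻¹ * h Q) * ((h Q)⁻¹ * x * h Q) * ((h P)⁻¹ * h Q)⁻¹ := by
      group
    rw [e']
    exact D.mul_mem (D.mul_mem hd h3) (D.inv_mem hd)

theorem pp_of_ac (hAC : AC F) : PP F := by
  rintro X Y ⟨f, hf, hsurj⟩
  obtain ⟨s, hs, hfs⟩ := hAC X Y f hf hsurj
  exact ⟨s, hs, fun a b hab => by rw [← hfs a, hab, hfs b]⟩

end Vale.Agent.P323
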