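import Vale.Agent.P323.Main

namespace Vale.Agent.P323

universe u

variable {G : Type u} [Group G] {F : NormalFilter G}

theorem wo_of_lin (hPP : PP F) (hU : Unif F) (X : MSet F) (hX : LinOrderable X) :
    WellOrderable X := by
  classical
  obtain ⟨r, hr, Kr, hKr, hsym⟩ := hX
  obtain ⟨Kc, hKc, hcar⟩ := X.sym
  letI := X.act
  let G₀ : Subgroup G := Kr ⊓ Kc
  have hG₀ : F.mem G₀ := F.inter hKr hKc
  have hst : ∀ k ∈ G₀, ∀ x ∈ X.car, k • x ∈ X.car := fun k hk x hx => hcar k hk.2 x hx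
  have h2cyc : ∀ k ∈ G₀, ∀ x ∈ X.car, k • k • x = x → k • x = x := by
    intro k hk x hx hkk
    have hx1 := hst k hk x hx
    have hx2 := hst k hk _ hx1
    have e2 : (⟨k • k • x, hx2⟩ : X.car) = ⟨x, hx⟩ := Subtype.ext hkk
    rcases trichotomous_of r (⟨x, hx⟩ : X.car) ⟨k • x, hx1⟩ with h | h | h
    · exfalso
      have h1 : r ⟨k • x, hx1⟩ ⟨k • k • x, hx2⟩ :=
        (hsym k hk.1 ⟨x, hx⟩ ⟨k • x, hx1⟩ hx1 hx2).mp h
      rw [e2] at h1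
      exact asymm_of r h h1
    · exact (congrArg Subtype.val h).symm
    · exfalso
      have h1 : r ⟨k • k • x, hx2⟩ ⟨k • x, hx1⟩ :=
        (hsym k hk.1 ⟨k • x, hx1⟩ ⟨x, hx⟩ hx2 hx1).mp h
      rw [e2] at h1
      exact asymm_of r h h1
  by_contra hnot
  have hnofix : ∀ K : Subgroup G, F.mem K → ∃ k ∈ K, ∃ x ∈ X.car, k • x ≠ x := by
    intro K hK
    by_contra hc
    push Not at hc
    exact hnot (wo_of_fix hK hc)
  -- closure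
  let Fx : Subgroup G → Set X.Pt := fun D => {x | x ∈ X.car ∧ ∀ d ∈ D, d • x = x}
  let cl : Subgroup G → Subgroup G := fun D =>
    { carrier := {g | g ∈ G₀ ∧ ∀ x ∈ Fx D, g • x = x}
      one_mem' := ⟨G₀.one_mem, fun x _ => one_smul _ x⟩
      mul_mem' := by
        rintro a b ⟨ha, ha'⟩ ⟨hb, hb'⟩
        exact ⟨G₀.mul_mem ha hb, fun x hx => by rw [mul_smul, hb' x hx, ha' x hx]⟩
      inv_mem' := by
        rintro a ⟨ha, ha'⟩
        exact ⟨G₀.inv_mem ha, fun x hx => by rw [inv_smul_eq_iff, ha' x hx]⟩ }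
  let Cl : Subgroup G → Prop := fun D => ∀ g ∈ G₀, (∀ x ∈ Fx D, g • x = x) → g ∈ D
  have hcl : ∀ D, Cl (cl D) := by
    intro D g hg h
    exact ⟨hg, fun x hx => h x ⟨hx.1, fun d hd => hd.2 x hx⟩⟩
  have hle_cl : ∀ D, D ≤ G₀ → D ≤ cl D := fun D hD d hd => ⟨hD hd, fun x hx => hx.2 d hd⟩
  have hcl_le : ∀ D, cl D ≤ G₀ := fun D d hd => hd.1
  let ι : Type u := {p : Subgroup G × Subgroup G // F.mem p.1 ∧ F.mem p.2 ∧ p.1 ≤ p.2 ∧ Cl p.1}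
  let E : ι → Subgroup G := fun p => p.1.1
  let M : ι → Subgroup G := fun p => p.1.2
  let κ : ι → Type u := fun _ => PUnit
  obtain ⟨K, hK, hKG, j, hinj, hj⟩ := orb_inj hPP hG₀ (E := E) (M := M) (fun p => p.2.1)
    (fun p => p.2.2.1) (fun p => p.2.2.2.1) κ
  obtain ⟨E₀, hE₀, hE₀K, huniv⟩ := hU K hK
  obtain ⟨y, hy, x0, hx0, hne⟩ := hnofix E₀ hE₀
  obtain ⟨S, hS, hSx⟩ := X.symPt x0
  obtain ⟨g, hgK, hg⟩ := huniv (E₀ ⊓ S) (F.inter hE₀ hS)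
  have hgG : g ∈ G₀ := hKG hgK
  have hE₀G : E₀ ≤ G₀ := hE₀K.trans hKG
  have hmove : ∀ z : X.Pt, (∀ e ∈ E₀, (g * e * g⁻¹) • z = z) → ∀ e ∈ E₀, e • g⁻¹ • z = g⁻¹ • z := by
    intro z hz e he
    have h1 := hz e he
    rw [mul_smul, mul_smul, ← eq_inv_smul_iff] at h1
    exact h1
  let D := cl E₀
  have hg1 : ∀ x ∈ D, g * x * g⁻¹ ∈ D := by
    rintro x ⟨hx, hx'⟩
    refine ⟨G₀.mul_mem (G₀.mul_mem hgG hx) (G₀.inv_mem hgG), ?_⟩
    rintro z ⟨hz, hz'⟩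
    have h1 : g⁻¹ • z ∈ Fx E₀ :=
      ⟨hst _ (G₀.inv_mem hgG) z hz, hmove z (fun e he => hz' _ (hg e he).1)⟩
    rw [mul_smul, mul_smul, hx' _ h1, smul_inv_smul]
  have hyD : y ∈ D := hle_cl E₀ hE₀G hy
  have hy' : g⁻¹ * y * g ∉ D := by
    rintro ⟨-, h⟩
    have h1 : g⁻¹ • x0 ∈ Fx E₀ :=
      ⟨hst _ (G₀.inv_mem hgG) x0 hx0, hmove x0 (fun e he => hSx _ (hg e he).2)⟩
    have h2 := h _ h1
    rw [mul_smul, mul_smul, smul_inv_smul] at h2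
    exact hne (smul_left_cancel g⁻¹ h2)
  have hDF : F.mem D := F.up hE₀ (hle_cl E₀ hE₀G)
  let A := MM D g hg1 2
  have hDA : D ≤ A := (le_LL D g hg1).trans (LL_le_MM D g hg1 2)
  let p : ι := ⟨(D, A), hDF, F.up hDF hDA, hDA, hcl E₀⟩
  have ht0 : CP.mk M κ p 1 PUnit.unit ∈ orbCar G₀ M κ := mk_mem_orb G₀.one_mem
  have ht1 : CP.mk M κ p g PUnit.unit ∈ orbCar G₀ M κ := mk_mem_orb hgG
  have ht2 : CP.mk M κ p (g * g) PUnit.unit ∈ orbCar G₀ M κ := mk_mem_orb (G₀.mul_mem hgG hgG)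
  have e20 : (⟨_, ht2⟩ : orbCar G₀ M κ) = ⟨_, ht0⟩ := by
    apply Subtype.ext
    rw [CP.mk_eq]
    refine ⟨?_, rfl⟩
    have h1 : g ^ (2 : ℤ) ∈ A := (zpow_MM hg1 hyD hy').mpr dvd_rfl
    have h2 := A.inv_mem h1
    rw [mul_one, ← zpow_two]
    exact h2
  have e10 : (⟨_, ht1⟩ : orbCar G₀ M κ) ≠ ⟨_, ht0⟩ := by
    intro h
    have h1 := congrArg Subtype.val h
    rw [CP.mk_eq] at h1
    have h2 : g ∈ A := by
      have := A.inv_mem h1.1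
      simpa using this
    have h3 : (2 : ℤ) ∣ 1 := by
      apply (zpow_MM hg1 hyD hy' (n := 2) (k := 1)).mp
      simpa using h2
    have h4 := Int.le_of_dvd one_pos h3
    omega
  have hj1 : (j ⟨_, ht1⟩).1 = g • (j ⟨_, ht0⟩).1 := by
    have h := hj g hgK ⟨_, ht0⟩ (smul_mem_orb ht0 hgG)
    rw [← h]
    congr 2
    apply Subtype.ext
    show CP.mk M κ p g PUnit.unit = CP.mk M κ p (g * 1) PUnit.unit
    rw [mul_one]
  have hj2 : (j ⟨_, ht0⟩).1 = g • (j ⟨_, ht1⟩).1 := by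
    have h := hj g hgK ⟨_, ht1⟩ (smul_mem_orb ht1 hgG)
    rw [← h, ← e20]
    rfl
  obtain ⟨i, g', hg', t', hs0⟩ := orb_exists (j ⟨_, ht0⟩).2
  have hn1 : g'⁻¹ * (g * g') ∉ E i := by
    intro h
    apply e10
    apply hinj
    apply Subtype.ext
    rw [hj1, hs0, CP.smul_mk, CP.mk_eq]
    refine ⟨?_, rfl⟩
    have := (E i).inv_mem h
    have e : (g'⁻¹ * (g * g'))⁻¹ = (g * g')⁻¹ * g' := by group
    rwa [e] at this
  have hn2 : g'⁻¹ * (g * (g * g')) ∈ E i := by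
    have h := hj2
    rw [hj1, hs0, CP.smul_mk, CP.smul_mk, CP.mk_eq] at h
    exact h.1
  have hClE : Cl (E i) := i.2.2.2.2
  have hmemG : g'⁻¹ * (g * g') ∈ G₀ :=
    G₀.mul_mem (G₀.inv_mem hg') (G₀.mul_mem hgG hg')
  have hex : ∃ x ∈ Fx (E i), (g'⁻¹ * (g * g')) • x ≠ x := by
    by_contra hc
    push Not at hc
    exact hn1 (hClE _ hmemG hc)
  obtain ⟨x, ⟨hxc, hxE⟩, hxne⟩ := hex
  have hw : g' • x ∈ X.car := hst g' hg' x hxc
  apply hxne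
  have h1 := hxE _ hn2
  rw [mul_smul, mul_smul, mul_smul] at h1
  rw [inv_smul_eq_iff] at h1
  have h2 := h2cyc g hgG (g' • x) hw h1
  rw [mul_smul, mul_smul, h2, inv_smul_smul]

end Vale.Agent.P323
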