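import Vale.Agent.P323.Orb
import Vale.Agent.P323.Grp

namespace Vale.Agent.P323

universe u

variable {G : Type u} [Group G] {F : NormalFilter G}

/-- the uniformity property (proved from `PP` in `Uniform.lean`) -/
def Unif (F : NormalFilter G) : Prop :=
  ∀ H : Subgroup G, F.mem H → ∃ E : Subgroup G, F.mem E ∧ E ≤ H ∧
    ∀ K : Subgroup G, F.mem K → ∃ h ∈ H, ∀ x ∈ E, h * x * h⁻¹ ∈ K

theorem ac_of_least {E : Subgroup G} (hE : F.mem E) (hl : ∀ D, F.mem D → E ≤ D) : AC F := by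
  intro X Y f _ hf
  refine ⟨Function.surjInv hf, ⟨E, hE, ?_⟩, Function.surjInv_eq hf⟩
  have triv : ∀ (Z : MSet F) (z : Z.Pt) (k : G), k ∈ E → Z.act.smul k z = z := by
    intro Z z k hk
    obtain ⟨K, hK, h⟩ := Z.symPt z
    exact h k (hl K hK hk)
  intro k hk y hy
  have e : (⟨Y.app k y.1, hy⟩ : Y.car) = y := Subtype.ext (triv Y y.1 k hk)
  rw [e]
  exact (triv X _ k hk).symm

theorem wo_of_fix {X : MSet F} {E : Subgroup G} (hE : F.mem E)
    (hfix : ∀ k ∈ E, ∀ x ∈ X.car, X.act.smul k x = x) : WellOrderable X := by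
  refine ⟨WellOrderingRel, inferInstance, E, hE, ?_⟩
  intro k hk x y hx hy
  have e1 : (⟨X.app k x.1, hx⟩ : X.car) = x := Subtype.ext (hfix k hk x.1 x.2)
  have e2 : (⟨X.app k y.1, hy⟩ : X.car) = y := Subtype.ext (hfix k hk y.1 y.2)
  rw [e1, e2]

theorem card_fibre {ι : Type u} {E M : ι → Subgroup G} (hle : ∀ i, E i ≤ M i) (κ : ι → Type u)
    (y : orbCar ⊤ M κ) :
    Nat.card {x : orbCar ⊤ E κ // projMap ⊤ hle κ x = y} =
      ((E y.1.1).subgroupOf (M y.1.1)).index := by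
  obtain ⟨y, hy⟩ := y
  obtain ⟨i, g, -, t, rfl⟩ := orb_exists hy
  show _ = ((E i).subgroupOf (M i)).index
  unfold Subgroup.index
  symm
  have hmem : ∀ a : G, CP.mk E κ i a t ∈ orbCar ⊤ E κ := fun a => mk_mem_orb (Subgroup.mem_top a)
  have hproj : ∀ a : M i, projMap ⊤ hle κ ⟨CP.mk E κ i (g * a) t, hmem _⟩ =
      ⟨CP.mk M κ i g t, hy⟩ := by
    intro a
    apply Subtype.ext
    show CP.proj hle κ (CP.mk E κ i (g * a) t) = CP.mk M κ i g t
    rw [CP.proj_mk, CP.mk_eq]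
    refine ⟨?_, rfl⟩
    have : (g * (a : G))⁻¹ * g = (a : G)⁻¹ := by group
    rw [this]
    exact (M i).inv_mem a.2
  let φ : (M i) ⧸ (E i).subgroupOf (M i) →
      {x : orbCar ⊤ E κ // projMap ⊤ hle κ x = ⟨CP.mk M κ i g t, hy⟩} :=
    Quotient.lift (fun a => ⟨⟨CP.mk E κ i (g * a) t, hmem _⟩, hproj a⟩) (by
      intro a b hab
      have hab' := QuotientGroup.leftRel_apply.mp hab
      rw [Subgroup.mem_subgroupOf] at hab'
      apply Subtype.ext
      apply Subtype.ext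
      show CP.mk E κ i (g * a) t = CP.mk E κ i (g * b) t
      rw [CP.mk_eq]
      refine ⟨?_, rfl⟩
      have : (g * (a : G))⁻¹ * (g * b) = ((a⁻¹ * b : M i) : G) := by push_cast; group
      rw [this]
      exact hab')
  apply Nat.card_congr
  refine Equiv.ofBijective φ ⟨?_, ?_⟩
  · intro q q'
    induction q using Quotient.inductionOn with
    | h a =>
    induction q' using Quotient.inductionOn with
    | h b =>
    intro h
    have h1 : CP.mk E κ i (g * a) t = CP.mk E κ i (g * b) t :=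
      congrArg (fun z => z.1.1) h
    rw [CP.mk_eq] at h1
    apply Quotient.sound
    apply QuotientGroup.leftRel_apply.mpr
    rw [Subgroup.mem_subgroupOf]
    have : ((a⁻¹ * b : M i) : G) = (g * (a : G))⁻¹ * (g * b) := by push_cast; group
    rw [this]
    exact h1.1
  · rintro ⟨⟨x, hx⟩, hxy⟩
    obtain ⟨i', g', -, t', rfl⟩ := orb_exists hx
    have h1 : CP.mk M κ i' g' t' = CP.mk M κ i g t := congrArg Subtype.val hxy
    have hi : i' = i := congrArg (fun z : CP M κ => z.1) h1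
    subst hi
    rw [CP.mk_eq] at h1
    obtain ⟨h2, rfl⟩ := h1
    have h3 : g⁻¹ * g' ∈ M i' := by
      have := (M i').inv_mem h2
      have e : (g'⁻¹ * g)⁻¹ = g⁻¹ * g' := by group
      rwa [e] at this
    refine ⟨Quotient.mk _ ⟨g⁻¹ * g', h3⟩, ?_⟩
    apply Subtype.ext
    apply Subtype.ext
    show CP.mk E κ i' (g * (g⁻¹ * g')) t' = CP.mk E κ i' g' t'
    rw [mul_inv_cancel_left]

theorem least_of_choiceN (hU : Unif F) {n : ℕ} (hn : 2 ≤ n) (hC : ChoiceN F n) :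
    ∃ E, F.mem E ∧ ∀ D, F.mem D → E ≤ D := by
  by_contra hcon
  push Not at hcon
  let ι : Type u := {p : Subgroup G × Subgroup G // F.mem p.1 ∧ F.mem p.2 ∧ p.1 ≤ p.2 ∧
    (p.1.subgroupOf p.2).index = n}
  let E : ι → Subgroup G := fun p => p.1.1
  let M : ι → Subgroup G := fun p => p.1.2
  have hE : ∀ i, F.mem (E i) := fun p => p.2.1
  have hM : ∀ i, F.mem (M i) := fun p => p.2.2.1
  have hle : ∀ i, E i ≤ M i := fun p => p.2.2.2.1
  let κ : ι → Type u := fun _ => PUnit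
  obtain ⟨s, ⟨K, hK, hs⟩, hsec⟩ := hC (orb ⊤ F.top_mem E hE κ) (orb ⊤ F.top_mem M hM κ)
    (projMap ⊤ hle κ) ⟨⊤, F.top_mem, fun k _ x hx => CP.proj_smul hle κ k x.1⟩
    (fun y => (card_fibre hle κ y).trans y.1.1.2.2.2.2)
  -- work inside K
  obtain ⟨E₀, hE₀, hE₀K, huniv⟩ := hU K hK
  obtain ⟨D, hD, hED⟩ := hcon E₀ hE₀
  obtain ⟨y, hyE, hyD⟩ := Set.not_subset.mp hED
  obtain ⟨g, hgK, hg⟩ := huniv (E₀ ⊓ D) (F.inter hE₀ hD)
  have hg1 : ∀ x ∈ E₀, g * x * g⁻¹ ∈ E₀ := fun x hx => (hg x hx).1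
  have hy' : g⁻¹ * y * g ∉ E₀ := by
    intro h
    apply hyD
    have := (hg _ h).2
    have e : g * (g⁻¹ * y * g) * g⁻¹ = y := by group
    rwa [e] at this
  let A := MM E₀ g hg1 n
  let B := MM E₀ g hg1 1
  have hEA : E₀ ≤ A := (le_LL E₀ g hg1).trans (LL_le_MM E₀ g hg1 n)
  have hEB : E₀ ≤ B := (le_LL E₀ g hg1).trans (LL_le_MM E₀ g hg1 1)
  have hBK : B ≤ K := MM_le hg1 hE₀K hgK 1
  have hidx : (A.subgroupOf B).index = n := by
    rw [index_MM hg1 hyE hy' n, Nat.card_zmod]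
  let p : ι := ⟨(A, B), F.up hE₀ hEA, F.up hE₀ hEB, MM_le_one hg1 n, hidx⟩
  let t0 : orbCar ⊤ M κ := ⟨CP.mk M κ p 1 PUnit.unit, mk_mem_orb (Subgroup.mem_top 1)⟩
  obtain ⟨i', g', -, t', hst⟩ := orb_exists (s t0).2
  have h1 : CP.mk M κ i' g' t' = CP.mk M κ p 1 PUnit.unit := by
    have := congrArg Subtype.val (hsec t0)
    have e : (projMap ⊤ hle κ (s t0)).1 = CP.mk M κ i' g' t' := by
      show CP.proj hle κ (s t0).1 = _
      rw [hst, CP.proj_mk]
    rw [← e]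
    exact this
  have hi : i' = p := congrArg (fun z : CP M κ => z.1) h1
  subst hi
  rw [CP.mk_eq] at h1
  have hg'B : g' ∈ B := by
    have := B.inv_mem h1.1
    simpa using this
  -- every element of B fixes s t0
  have hfix : ∀ k ∈ B, g'⁻¹ * k * g' ∈ A := by
    intro k hk
    have hmem : k • t0.1 ∈ orbCar ⊤ M κ := smul_mem_orb t0.2 (Subgroup.mem_top k)
    have e0 : (⟨k • t0.1, hmem⟩ : orbCar ⊤ M κ) = t0 := by
      apply Subtype.ext
      show k • CP.mk M κ p 1 PUnit.unit = CP.mk M κ p 1 PUnit.unit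
      rw [CP.smul_mk, CP.mk_eq]
      refine ⟨?_, rfl⟩
      show (k * 1)⁻¹ * 1 ∈ B
      simpa using B.inv_mem hk
    have h2 : (s ⟨k • t0.1, hmem⟩).1 = (CP.instAct E κ).smul k (s t0).1 := hs k (hBK hk) t0 hmem
    have h20 : (s ⟨k • t0.1, hmem⟩).1 = (s t0).1 := congrArg (fun z => (s z).1) e0
    rw [h20, hst] at h2
    have h2' : CP.mk E κ p g' t' = CP.mk E κ p (k * g') t' := h2
    rw [CP.mk_eq] at h2'
    have h3 : g'⁻¹ * (k * g') ∈ A := h2'.1
    rwa [← mul_assoc] at h3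
  have hgB : g ∈ B := by
    have := (zpow_MM hg1 hyE hy' (n := 1) (k := 1)).mpr (one_dvd 1)
    simpa using this
  have hgA : g ∈ A := by
    have h4 : g' * g * g'⁻¹ ∈ B := B.mul_mem (B.mul_mem hg'B hgB) (B.inv_mem hg'B)
    have := hfix _ h4
    have e : g'⁻¹ * (g' * g * g'⁻¹) * g' = g := by group
    rwa [e] at this
  have h5 : (n : ℤ) ∣ 1 := by
    apply (zpow_MM hg1 hyE hy' (n := n) (k := 1)).mp
    simpa using hgA
  have h6 := Int.le_of_dvd one_pos h5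
  omega

end Vale.Agent.P323
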