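import Vale.Agent.P323.Defs

namespace Vale.Agent.P323

universe u

variable {G : Type u} [Group G] {F : NormalFilter G} {ι : Type u}

/-- coset spaces with multiplicities -/
def CP (E : ι → Subgroup G) (κ : ι → Type u) : Type u := Σ i, (G ⧸ E i) × κ i

def CP.mk (E : ι → Subgroup G) (κ : ι → Type u) (i : ι) (g : G) (t : κ i) : CP E κ :=
  ⟨i, ((g : G ⧸ E i), t)⟩

instance CP.instAct (E : ι → Subgroup G) (κ : ι → Type u) : MulAction G (CP E κ) where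
  smul g p := ⟨p.1, (g • p.2.1, p.2.2)⟩
  one_smul p := by
    obtain ⟨i, q, t⟩ := p
    show (⟨i, ((1 : G) • q, t)⟩ : Σ i, (G ⧸ E i) × κ i) = ⟨i, (q, t)⟩
    rw [one_smul]
  mul_smul g h p := by
    obtain ⟨i, q, t⟩ := p
    show (⟨i, ((g * h) • q, t)⟩ : Σ i, (G ⧸ E i) × κ i) = ⟨i, (g • h • q, t)⟩
    rw [mul_smul]

theorem CP.smul_mk (E : ι → Subgroup G) (κ : ι → Type u) (k : G) (i : ι) (g : G) (t : κ i) :
    k • CP.mk E κ i g t = CP.mk E κ i (k * g) t := rfl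

theorem CP.mk_eq (E : ι → Subgroup G) (κ : ι → Type u) {i : ι} {g g' : G} {t t' : κ i} :
    CP.mk E κ i g t = CP.mk E κ i g' t' ↔ g⁻¹ * g' ∈ E i ∧ t = t' := by
  unfold CP.mk
  constructor
  · intro h
    have h2 := (Sigma.mk.inj_iff.mp h).2
    have h3 := eq_of_heq h2
    have h4 := Prod.ext_iff.mp h3
    exact ⟨QuotientGroup.eq.mp h4.1, h4.2⟩
  · rintro ⟨h, rfl⟩
    have : (g : G ⧸ E i) = g' := QuotientGroup.eq.mpr h
    rw [this]


theorem CP.sym {E : ι → Subgroup G} {κ : ι → Type u} (hE : ∀ i, F.mem (E i)) (x : CP E κ) :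
    ∃ K : Subgroup G, F.mem K ∧ ∀ k ∈ K, k • x = x := by
  obtain ⟨i, q, t⟩ := x
  obtain ⟨g, rfl⟩ := QuotientGroup.mk_surjective q
  refine ⟨(E i).map (MulAut.conj g).toMonoidHom, F.conj g (hE i), ?_⟩
  rintro k ⟨e, he, rfl⟩
  show CP.mk E κ i _ t = CP.mk E κ i g t
  rw [CP.mk_eq]
  refine ⟨?_, rfl⟩
  have : ((MulAut.conj g).toMonoidHom e * g)⁻¹ * g = e⁻¹ := by
    simp [MulAut.conj_apply]
  show ((MulAut.conj g).toMonoidHom e * g)⁻¹ * g ∈ E i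
  rw [this]
  exact (E i).inv_mem he

/-- the `H`-orbits of the base cosets, with multiplicities -/
def orbCar (H : Subgroup G) (E : ι → Subgroup G) (κ : ι → Type u) : Set (CP E κ) :=
  {p | ∃ h ∈ H, p.2.1 = ((h : G) : G ⧸ E p.1)}

theorem mk_mem_orb {H : Subgroup G} {E : ι → Subgroup G} {κ : ι → Type u} {i : ι} {g : G}
    {t : κ i} (hg : g ∈ H) : CP.mk E κ i g t ∈ orbCar H E κ := ⟨g, hg, rfl⟩

theorem orb_exists {H : Subgroup G} {E : ι → Subgroup G} {κ : ι → Type u} {x : CP E κ}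
    (hx : x ∈ orbCar H E κ) : ∃ i, ∃ g ∈ H, ∃ t : κ i, x = CP.mk E κ i g t := by
  obtain ⟨i, q, t⟩ := x
  obtain ⟨h, hh, e⟩ := hx
  dsimp at e
  subst e
  exact ⟨i, h, hh, t, rfl⟩

theorem smul_mem_orb {H : Subgroup G} {E : ι → Subgroup G} {κ : ι → Type u} {x : CP E κ}
    (hx : x ∈ orbCar H E κ) {k : G} (hk : k ∈ H) : k • x ∈ orbCar H E κ := by
  obtain ⟨i, g, hg, t, rfl⟩ := orb_exists hx
  rw [CP.smul_mk]
  exact mk_mem_orb (H.mul_mem hk hg)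

/-- the object of the model -/
def orb (H : Subgroup G) (hH : F.mem H) (E : ι → Subgroup G) (hE : ∀ i, F.mem (E i))
    (κ : ι → Type u) : MSet F where
  Pt := CP E κ
  act := CP.instAct E κ
  symPt := CP.sym hE
  car := orbCar H E κ
  sym := ⟨H, hH, fun _ hk _ hx => smul_mem_orb hx hk⟩

/-- projection of coset spaces -/
def CP.proj {E M : ι → Subgroup G} (hle : ∀ i, E i ≤ M i) (κ : ι → Type u) (x : CP E κ) :
    CP M κ :=
  ⟨x.1, (Quotient.map' (s₁ := QuotientGroup.leftRel (E x.1)) (s₂ := QuotientGroup.leftRel (M x.1))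
    id (by
      intro a b h
      rw [QuotientGroup.leftRel_apply] at h ⊢
      exact hle _ h) x.2.1, x.2.2)⟩

theorem CP.proj_mk {E M : ι → Subgroup G} (hle : ∀ i, E i ≤ M i) (κ : ι → Type u) (i : ι) (g : G)
    (t : κ i) : CP.proj hle κ (CP.mk E κ i g t) = CP.mk M κ i g t := rfl

theorem CP.proj_smul {E M : ι → Subgroup G} (hle : ∀ i, E i ≤ M i) (κ : ι → Type u) (k : G)
    (x : CP E κ) : CP.proj hle κ (k • x) = k • CP.proj hle κ x := by
  obtain ⟨i, q, t⟩ := x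
  obtain ⟨g, rfl⟩ := QuotientGroup.mk_surjective q
  rfl

theorem proj_mem {H : Subgroup G} {E M : ι → Subgroup G} (hle : ∀ i, E i ≤ M i) (κ : ι → Type u)
    {x : CP E κ} (hx : x ∈ orbCar H E κ) : CP.proj hle κ x ∈ orbCar H M κ := by
  obtain ⟨i, g, hg, t, rfl⟩ := orb_exists hx
  rw [CP.proj_mk]
  exact mk_mem_orb hg

/-- the projection as a map of the model -/
def projMap (H : Subgroup G) {E M : ι → Subgroup G} (hle : ∀ i, E i ≤ M i) (κ : ι → Type u)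
    (x : orbCar H E κ) : orbCar H M κ := ⟨CP.proj hle κ x.1, proj_mem hle κ x.2⟩

theorem orb_inj (hPP : PP F) {H : Subgroup G} (hH : F.mem H) {E M : ι → Subgroup G}
    (hE : ∀ i, F.mem (E i)) (hM : ∀ i, F.mem (M i)) (hle : ∀ i, E i ≤ M i) (κ : ι → Type u) :
    ∃ K, F.mem K ∧ K ≤ H ∧ ∃ j : orbCar H M κ → orbCar H E κ, Function.Injective j ∧
      ∀ k ∈ K, ∀ (x : orbCar H M κ) (hx : k • x.1 ∈ orbCar H M κ),
        (j ⟨k • x.1, hx⟩).1 = k • (j x).1 := by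
  obtain ⟨j, ⟨K, hK, hj⟩, hinj⟩ := hPP (orb H hH E hE κ) (orb H hH M hM κ)
    ⟨projMap H hle κ, ⟨⊤, F.top_mem, fun k _ x hx => CP.proj_smul hle κ k x.1⟩, by
      rintro ⟨y, hy⟩
      obtain ⟨i, g, hg, t, rfl⟩ := orb_exists hy
      exact ⟨⟨CP.mk E κ i g t, mk_mem_orb hg⟩, rfl⟩⟩
  exact ⟨K ⊓ H, F.inter hK hH, inf_le_right, j, hinj, fun k hk x hx => hj k hk.1 x hx⟩

end Vale.Agent.P323
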